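import Vale.Agent.P088.R2.H509.EP.Lit

/-!
# P088, stage 3, leaf RSf: the letter
-/

noncomputable section

namespace Vale.Agent.P088.R2.H53.RS

open Vale.Agent.P088.LR Vale.Agent.P088.HY Vale.Agent.P088.R2.H31.EP

/-- The metric factor of the leaf `RSf`: `σ (N + G) / (2 R)`. -/
def mRSf {n : ℕ} (d : Pk n) (q : Cst) (z : VV n) : ℝ :=
  q.σ / (2 * q.R) * (deriv d.Φ (d.u0 z) +
    q.D 1 0 (d.u0 z + Real.log (prS q.e₁ (qq z)), √(qq z)))

end Vale.Agent.P088.R2.H53.RS
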