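import Vale.Agent.P088.R2.H53.RS.Geo
import Vale.Agent.P088.R2.H269.INF.Inst

/-!
# P088, stage 3, leaf RSf: all slot quantities of the weight are `≤ C (N + G)`
-/

open Set Filter
open scoped ContDiff Topology Matrix

noncomputable section

namespace Vale.Agent.P088.R2.H53.RS

open Vale.Agent.P088.LR Vale.Agent.P088.HY Vale.Agent.P088.R2.H475 Vale.Agent.P088.R2.H464.Cu
open Vale.Agent.P088.R2.H31.EP Vale.Agent.P088.R2.H404.INF Vale.Agent.P088.R2.H269.INF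
open Vale.Agent.P088.R2.H644.Ch Vale.Agent.P088.R2.H644.Sy Vale.Agent.P088.R2.H644.Ep
open Vale.Agent.P088.R2.H768.FarJ Vale.Agent.P088.R2.H961.GW Vale.Agent.P088.R2.H657.W

variable {n : ℕ} {σ e₁ : ℝ} {q : Cst} {d : Pk n} {z : VV n}

/-! ## The region -/

theorem om_x (hz : z ∈ OmR q d) : d.l₀ q + 21 / 20 * q.R < d.l z.1 := hz.1.1.1.1
theorem om_y (hz : z ∈ OmR q d) : d.l₀ q + 21 / 20 * q.R < d.l z.2 := hz.1.1.1.2
theorem om_m (hz : z ∈ OmR q d) : d.l₀ q + 21 / 20 * q.R < d.l (mid z) := hz.1.1.2.1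
theorem om_x' (hz : z ∈ OmR q d) : d.l z.1 < d.l₀ q + 5 / 2 * q.R := hz.1.1.2.2.1
theorem om_y' (hz : z ∈ OmR q d) : d.l z.2 < d.l₀ q + 5 / 2 * q.R := hz.1.1.2.2.2
theorem om_u (hz : z ∈ OmR q d) : d.uth q - 1 < d.u0 z := hz.1.2.1
theorem om_N (hz : z ∈ OmR q d) : q.nm / 4 * Real.exp (d.u0 z) < deriv d.Φ (d.u0 z) := hz.1.2.2
theorem om_q (hz : z ∈ OmR q d) : 1600 < qq z := hz.2.1
theorem om_L (hz : z ∈ OmR q d) : prL q.e₁ (√(qq z)) < 161 / 200 := hz.2.2.1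
theorem om_E (hz : z ∈ OmR q d) : prE q.e₁ (√(qq z)) < q.σ / (16 * q.R) := hz.2.2.2

/-- The members of the families. -/
structure Rk (n : ℕ) (σ e₁ : ℝ) (q : Cst) (d : Pk n) : Prop where
  n1 : 1 ≤ n
  rs : RsC n q
  pk : PkOk q d
  hσ : q.σ = σ
  he : q.e₁ = e₁

namespace Rk

theorem fk (h : Rk n σ e₁ q d) : Fk n 3 1 σ e₁ q d := by
  have := h.rs.fk h.n1 h.pk
  rw [h.hσ, h.he] at this
  exact this

theorem op (h : Rk n σ e₁ q d) : IsOpen (OmR q d) := OmR_open h.rs.e0 h.pk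

theorem x_mem (h : Rk n σ e₁ q d) (hz : z ∈ OmR q d) : z.1 ∈ Bw n σ q.R := by
  refine Bw_of (kap := d.kap) (Gs := d.Gs) h.fk.σ0 h.fk.σ1 h.fk.R0 ?_
  have h1 := om_x' hz
  rw [h.fk.lit] at h1
  have := h.fk.R0
  have e0 : d.l₀ q = lam0 q.R d.kap d.Gs := rfl
  linarith

theorem y_mem (h : Rk n σ e₁ q d) (hz : z ∈ OmR q d) : z.2 ∈ Bw n σ q.R := by
  refine Bw_of (kap := d.kap) (Gs := d.Gs) h.fk.σ0 h.fk.σ1 h.fk.R0 ?_
  have h1 := om_y' hz
  rw [h.fk.lit] at h1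
  have := h.fk.R0
  have e0 : d.l₀ q = lam0 q.R d.kap d.Gs := rfl
  linarith

theorem r2q (h : Rk n σ e₁ q d) (hz : z ∈ OmR q d) : H31.EP.r2 (gi d.s₁) z = qq z :=
  r2_eq h.n1 h.rs.win.inf h.pk (om_m hz).le

theorem r_le (h : Rk n σ e₁ q d) (hz : z ∈ OmR q d) :
    √(H31.EP.r2 (gi d.s₁) z) ≤ 6 / σ * q.R := by
  rw [h.r2q hz]
  have h2 := en_sub_le_wR (n := n) h.fk.σ0 h.fk.R0 z.1 z.2
  have hx : √(HY.sq (wR n σ q.R z.1)) ≤ 2 := by
    rw [Real.sqrt_le_left two_pos.le]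
    have : HY.sq (wR n σ q.R z.1) < 4 := h.x_mem hz
    linarith
  have hy : √(HY.sq (wR n σ q.R z.2)) ≤ 2 := by
    rw [Real.sqrt_le_left two_pos.le]
    have : HY.sq (wR n σ q.R z.2) < 4 := h.y_mem hz
    linarith
  have hR := h.fk.R0
  have hσ := h.fk.σ0
  have h3 : √(HY.sq (z.1 - z.2)) ≤ q.R / σ * 4 :=
    h2.trans (mul_le_mul_of_nonneg_left (by linarith) (by positivity))
  have h4 : 0 ≤ q.R / σ := by positivity
  calc √(qq z) ≤ q.R / σ * 4 := h3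
    _ ≤ q.R / σ * 6 := by linarith
    _ = _ := by ring

theorem okx (h : Rk n σ e₁ q d) : d.sx.Ok (OmR q d) (fun _ => 1) := by
  have := H961.GW.okx (fr0 h.fk.tr.sm h.fk.tr.sy) (fr0 h.fk.tr'.sm h.fk.tr'.sy) h.op
    (U := OmR q d) (fun z _ => ⟨mem_univ _, mem_univ _⟩)
  rwa [tht_one] at this

theorem oky (h : Rk n σ e₁ q d) : d.sy.Ok (OmR q d) (fun _ => 1) := by
  have := H961.GW.oky (fr0 h.fk.tr.sm h.fk.tr.sy) (fr0 h.fk.tr'.sm h.fk.tr'.sy) h.op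
    (U := OmR q d) (fun z _ => ⟨mem_univ _, mem_univ _⟩)
  rwa [tht_one] at this

end Rk

section fam

variable {α : Type*} {q : α → Cst} {d : α → Pk n}

/-- Helper644's `Lg`. -/
theorem lgR (h : ∀ a, Rk n σ e₁ (q a) (d a)) :
    Lg (fun a => Bw n σ (q a).R) (fun a => OmR (q a) (d a)) (fun a => (q a).R)
      (fun a => (d a).l) (fun a => gi (d a).s₁) (6 / σ) 3 := by
  by_cases ha : Nonempty α
  · obtain ⟨a₀⟩ := ha
    have e : (fun a => fderiv ℝ ((d a).l)) =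
        fun a => fderiv ℝ (levG n σ (q a).R (d a).kap (d a).Gs) := by
      funext a
      rw [(h a).fk.lit]
    refine lg_of (K := 12) (e := fun a => (q a).ε) (S := fun a => (d a).s₁)
      (fun a => (h a).fk.tr) (by norm_num) (by norm_num) (fun a => Bw_open)
      (fun a => (h a).op) (fun a => (h a).fk.R1) (fun a => (h a).fk.ε0) (fun a => (h a).fk.ε1)
      (fun a => (h a).fk.ε2) (fun a => (h a).fk.ε3) (fun a z hz => (h a).x_mem hz)
      (fun a z hz => (h a).y_mem hz) (fun a z hz => mid_Bw ((h a).x_mem hz) ((h a).y_mem hz))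
      (fun a => ?_) ?_ (fun a z hz => (h a).r_le hz)
    · exact (h a).pk.lev.sm.contDiffOn
    · rw [e]
      exact sf_lev (h a₀).fk.n1 (h a₀).fk.σ0 (h a₀).fk.σ1 _ _ _ (fun a => (h a).fk.R0) 3
  · have := not_nonempty_iff.1 ha
    exact ⟨fun a => isEmptyElim a, fun a => isEmptyElim a, fun a => isEmptyElim a,
      fun a => isEmptyElim a, fun a => isEmptyElim a, fun a => isEmptyElim a,
      fun a => isEmptyElim a, ⟨fun a => isEmptyElim a, fun j _ => ⟨0, fun a => isEmptyElim a⟩⟩,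
      fun i j => ⟨fun a => isEmptyElim a, fun j _ => ⟨0, fun a => isEmptyElim a⟩⟩,
      fun a => isEmptyElim a, fun a => isEmptyElim a⟩

/-- Helper768's family. -/
theorem fjR (κe : 0 < e₁) (h : ∀ a, Rk n σ e₁ (q a) (d a)) :
    H768.FarJ.Fj q d e₁ (6 / σ) 1600 (fun a => Bw n σ (q a).R) (fun a => OmR (q a) (d a)) 0 where
  e0 := κe
  e a := (h a).he
  c0 := by norm_num
  sl a := (h a).pk.sl
  M0 a := by have := (h a).fk.M1; linarith
  s0 a := (h a).fk.s0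
  s1 a := (h a).fk.s1
  c1 a := (h a).fk.c1
  lg := lgR h
  h0 a z hz := by
    have := om_q hz
    rw [(h a).r2q hz]
    exact this

/-- `1 ≤ r`. -/
theorem jr_one (κe : 0 < e₁) (h : ∀ a, Rk n σ e₁ (q a) (d a)) (a : α) {z : VV n}
    (hz : z ∈ OmR (q a) (d a)) : 1 ≤ jr (d a) z := by
  have h1 := (fjR κe h).h0 a z hz
  unfold jr
  rw [Real.one_le_sqrt]
  linarith

/-- **The symbols at the scale `1`.** -/
theorem symR (κe : 0 < e₁) (h : ∀ a, Rk n σ e₁ (q a) (d a)) :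
    (∀ a, ContDiffOn ℝ ∞ (uf (d a).l) (OmR (q a) (d a))) ∧
    (∀ a, ContDiffOn ℝ ∞ (jφ (q a) (d a)) (OmR (q a) (d a))) ∧
    (∀ a, ContDiffOn ℝ ∞ (jr (d a)) (OmR (q a) (d a))) ∧
    Sf (fun a => OmR (q a) (d a)) (fun _ _ => 1) (fun _ _ => 1) 3
      (fun a => fderiv ℝ (uf (d a).l)) ∧
    Sf (fun a => OmR (q a) (d a)) (fun _ _ => 1) (fun _ _ => 1) 3
      (fun a => fderiv ℝ (jφ (q a) (d a))) ∧
    Sf (fun a => OmR (q a) (d a)) (fun _ _ => 1) (fun _ _ => 1) 3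
      (fun a => fderiv ℝ (jr (d a))) := by
  have hl := lgR h
  obtain ⟨p1, p2, p3⟩ := (fjR κe h).ph
  have r0 : ∀ a, ∀ z ∈ OmR (q a) (d a), 0 < jr (d a) z := fun a z hz => (fjR κe h).r0 hz
  have one : ∀ a, ∀ z ∈ OmR (q a) (d a), (0 : ℝ) < 1 := fun _ _ _ => one_pos
  have hs : ∀ a, ∀ z ∈ OmR (q a) (d a), (1 : ℝ) ≤ 1 * jr (d a) z := by
    intro a z hz
    rw [one_mul]
    exact jr_one κe h a hz
  refine ⟨fun a => hl.sm_uf a, p1, p3.sm, ?_, ?_, ?_⟩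
  · exact hl.s_uf.mono_ρ (fun a _ _ => (h a).fk.R0) one (fun _ _ _ => zero_le_one)
      (A := 1) fun a z hz => by rw [one_mul]; exact (h a).fk.R1
  · exact p2.mono_ρ r0 one (fun _ _ _ => zero_le_one) hs
  · have h1 := (p3.fd hl.oU).wcongr (g₁ := fun _ _ => 1) fun a z hz => by
      rw [mul_inv_cancel₀ (r0 a z hz).ne']
    exact h1.mono_ρ r0 one (fun _ _ _ => zero_le_one) hs

/-- The slots at the scale `1`. -/
theorem fsR_x (h : ∀ a, Rk n σ e₁ (q a) (d a)) :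
    FS (fun a => (d a).sx) (fun i => ((Pi.single i 1, 0) : VV n)) (fun a => OmR (q a) (d a))
      (fun _ _ => 1) 3 where
  one _ _ := rfl
  dir _ _ := rfl
  k0 a i z := by
    show -((n : ℝ) - 1) * pd i (fun _ => 1) z.1 = 0
    rw [pd_one, mul_zero]
  ss i j := by
    have h1 := TR.sf1 (O := fun _ => (univ : Set (V n))) (fun a => (h a).fk.tr)
      (fun _ => isOpen_univ) (fun a => (h a).fk.R0) (fun a => (h a).fk.ε0)
      (fun a => (h a).fk.ε1) i j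
    have h2 := (Sf.compL (U := fun a => OmR (q a) (d a)) (fun _ => isOpen_univ) h1
      (ContinuousLinearMap.fst ℝ (V n) (V n)) (fun _ _ _ => mem_univ _)
      (fun a _ _ => (h a).fk.R0.le) (fun _ _ _ => zero_le_one)).mono_k (l := 3) (by norm_num)
    exact h2.mono_ρ (fun a _ _ => (h a).fk.R0) (fun _ _ _ => one_pos)
      (fun _ _ _ => zero_le_one) (A := 1) fun a z hz => by rw [one_mul]; exact (h a).fk.R1

theorem fsR_y (h : ∀ a, Rk n σ e₁ (q a) (d a)) :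
    FS (fun a => (d a).sy) (fun i => ((0, Pi.single i 1) : VV n)) (fun a => OmR (q a) (d a))
      (fun _ _ => 1) 3 where
  one _ _ := rfl
  dir _ _ := rfl
  k0 a i z := by
    show -((n : ℝ) - 1) * pd i (fun _ => 1) z.2 = 0
    rw [pd_one, mul_zero]
  ss i j := by
    have h1 := TR.sf1 (O := fun _ => (univ : Set (V n))) (fun a => (h a).fk.tr')
      (fun _ => isOpen_univ) (fun a => (h a).fk.R0) (fun a => (h a).fk.ε0)
      (fun a => (h a).fk.ε1) i j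
    have h2 := (Sf.compL (U := fun a => OmR (q a) (d a)) (fun _ => isOpen_univ) h1
      (ContinuousLinearMap.snd ℝ (V n) (V n)) (fun _ _ _ => mem_univ _)
      (fun a _ _ => (h a).fk.R0.le) (fun _ _ _ => zero_le_one)).mono_k (l := 3) (by norm_num)
    exact h2.mono_ρ (fun a _ _ => (h a).fk.R0) (fun _ _ _ => one_pos)
      (fun _ _ _ => zero_le_one) (A := 1) fun a z hz => by rw [one_mul]; exact (h a).fk.R1

/-- `0 < Φ'`, `0 < G`. -/
theorem nn_pos (κe : 0 < e₁) (h : ∀ a, Rk n σ e₁ (q a) (d a)) (a : α) {z : VV n}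
    (hz : z ∈ OmR (q a) (d a)) : 0 < deriv (d a).Φ (uf (d a).l z) ∧
      0 < (q a).D 1 0 (jφ (q a) (d a) z, jr (d a) z) :=
  ⟨(h a).pk.N_pos (h a).fk.M1 _, (h a).pk.sl.G_pos _ ((fjR κe h).r0 hz)⟩

theorem gdR (κe : 0 < e₁) (h : ∀ a, Rk n σ e₁ (q a) (d a)) :
    Gd (fun a => OmR (q a) (d a)) (fun _ _ => 1) (fun _ a z => nn (q a) (d a) z) where
  ρ0 _ _ _ := one_pos
  γ0 _ a z hz := by
    obtain ⟨h1, h2⟩ := nn_pos κe h a hz
    unfold H269.INF.nn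
    positivity
  gr _ := ⟨1, fun a z _ => by simp⟩

theorem pdR (h : ∀ a, Rk n σ e₁ (q a) (d a)) : Pd fun a => (q a).D where
  sm a i j := (h a).pk.sl.sm i j
  hd a i j z hz := (h a).pk.sl.hd i j z hz

/-- The bounds of the slope and of the slow exponential. -/
theorem bdR (κe : 0 < e₁) (h : ∀ a, Rk n σ e₁ (q a) (d a)) {CL : ℕ → ℝ} {L : ℝ}
    (hC : ∀ a, (q a).phL.1 = CL) (hL : ∀ a, (q a).L = L) :
    (∀ j ≤ 3, ∃ C, ∀ a, ∀ z ∈ OmR (q a) (d a),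
      |iteratedDeriv (j + 1) (d a).Φ (uf (d a).l z)| ≤ C * nn (q a) (d a) z) ∧
    ∀ i j, 1 ≤ i + j → i + j ≤ 3 + 1 → ∃ C, ∀ a, ∀ z ∈ OmR (q a) (d a),
      |(q a).D i j (jφ (q a) (d a) z, jr (d a) z)| ≤ C * nn (q a) (d a) z := by
  constructor
  · intro j _
    rcases j with _ | j
    · refine ⟨1, fun a z hz => ?_⟩
      obtain ⟨h1, h2⟩ := nn_pos κe h a hz
      rw [zero_add, iteratedDeriv_one, abs_of_pos h1, one_mul]
      unfold H269.INF.nn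
      linarith
    · refine ⟨|CL j| * |L + 1 / 20|, fun a z hz => ?_⟩
      obtain ⟨h1, h2⟩ := nn_pos κe h a hz
      have k1 := (h a).pk.top.kL j (uf (d a).l z)
      have k2 := (h a).pk.top.k2 (uf (d a).l z)
      have k3 := (h a).pk.top.k0 (uf (d a).l z)
      rw [hC a] at k1
      rw [hL a] at k2
      calc |iteratedDeriv (j + 2) (d a).Φ (uf (d a).l z)|
          ≤ CL j * deriv (deriv (d a).Φ) (uf (d a).l z) := k1
        _ ≤ |CL j| * deriv (deriv (d a).Φ) (uf (d a).l z) :=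
            mul_le_mul_of_nonneg_right (le_abs_self _) k3.le
        _ ≤ |CL j| * ((L + 1 / 20) * deriv (d a).Φ (uf (d a).l z)) :=
            mul_le_mul_of_nonneg_left k2 (abs_nonneg _)
        _ ≤ |CL j| * (|L + 1 / 20| * nn (q a) (d a) z) := by
            refine mul_le_mul_of_nonneg_left ?_ (abs_nonneg _)
            refine mul_le_mul (le_abs_self _) ?_ h1.le (abs_nonneg _)
            unfold H269.INF.nn
            linarith
        _ = _ := by ring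
  · intro i j h1 _
    refine ⟨|slB i j|, fun a z hz => ?_⟩
    obtain ⟨k1, k2⟩ := nn_pos κe h a hz
    refine ((h a).pk.sl.bd1 i j _ ((fjR κe h).r0 hz) h1).trans ?_
    refine mul_le_mul (le_abs_self _) ?_ k2.le (abs_nonneg _)
    unfold H269.INF.nn
    linarith

/-- **All slot quantities.** -/
theorem famR (κe : 0 < e₁) (h : ∀ a, Rk n σ e₁ (q a) (d a)) {CL : ℕ → ℝ} {L : ℝ}
    (hC : ∀ a, (q a).phL.1 = CL) (hL : ∀ a, (q a).L = L) :
    ∃ C, 0 ≤ C ∧ ∀ a, ∀ z ∈ OmR (q a) (d a),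
      Sb4 (d a).sx (d a).sy (f0 (q a) (d a)) C (fun _ => nn (q a) (d a) z) z ∧
      (∀ i, |(d a).sx.D i (nn (q a) (d a)) z| ≤ C * nn (q a) (d a) z) ∧
      (∀ i, |(d a).sy.D i (nn (q a) (d a)) z| ≤ C * nn (q a) (d a) z) := by
  obtain ⟨p1, p2, p3, p4, p5, p6⟩ := symR κe h
  obtain ⟨b1, b2⟩ := bdR κe h hC hL
  have hU : ∀ a, IsOpen (OmR (q a) (d a)) := fun a => (h a).op
  have r0 : ∀ a, ∀ z ∈ OmR (q a) (d a), 0 < jr (d a) z := fun a z hz => (fjR κe h).r0 hz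
  have gd := gdR κe h
  have sW := sg_W (pdR h) hU gd p1 p2 p3 (fun a => (h a).pk.top.sm) r0 p4 p5 p6 b1 b2
  obtain ⟨C, C0, hC1⟩ := sb4 (f := fun a => f0 (q a) (d a)) (fsR_x h) (fsR_y h)
    (fun a => (h a).okx) (fun a => (h a).oky) gd
    (fun a => ((h a).pk.top.sm.comp_contDiffOn (p1 a)).add ((pdR h).smc p2 p3 r0 a 0 0)) sW
  -- the gradient of `N + G`
  have s1 := sg_P hU gd p1 (fun a => (h a).pk.top.sm) p4 b1 1 0 (by norm_num)
  have s2 := sg_D (pdR h) hU gd p2 p3 r0 p5 p6 b2 1 1 0 (by norm_num) (by norm_num)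
  have e0 : sh 0 (fun (_ : ℕ) (a : α) (z : VV n) => nn (q a) (d a) z) =
      fun (_ : ℕ) (a : α) (z : VV n) => nn (q a) (d a) z := rfl
  have s3 : Sg (fun a => OmR (q a) (d a)) (fun (_ : ℕ) (a : α) (z : VV n) => nn (q a) (d a) z) 1
      fun a => nn (q a) (d a) := by
    refine (s1.add hU s2).congr hU fun a z hz => ?_
    unfold H269.INF.nn
    rw [zero_add, iteratedDeriv_one]
  obtain ⟨c1, c10, h1⟩ := bd_all (U := fun a => OmR (q a) (d a)) (ι' := Fin n)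
    (F := fun i a => (d a).sx.D i (nn (q a) (d a))) (gd.γ0 1)
    fun i => (fs_D1 (fsR_x h) hU s3 i).val
  obtain ⟨c2, c20, h2⟩ := bd_all (U := fun a => OmR (q a) (d a)) (ι' := Fin n)
    (F := fun i a => (d a).sy.D i (nn (q a) (d a))) (gd.γ0 1)
    fun i => (fs_D1 (fsR_y h) hU s3 i).val
  refine ⟨C + c1 + c2, by positivity, fun a z hz => ⟨?_, fun i => ?_, fun i => ?_⟩⟩
  · exact (hC1 a z hz).mono (fun _ => gd.γ0 0 a z hz) (by linarith)
  · exact (h1 i a z hz).trans (mul_le_mul_of_nonneg_right (by linarith) (gd.γ0 0 a z hz))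
  · exact (h2 i a z hz).trans (mul_le_mul_of_nonneg_right (by linarith) (gd.γ0 0 a z hz))

end fam

/-- **The bounds on the package**: the constant depends only on the constants before `R`. -/
theorem sbR (n : ℕ) (q₀ : Cst) : ∃ C, 0 ≤ C ∧ ∀ (q : Cst) (d : Pk n), q.b_R = q₀ → 1 ≤ n →
    RsC n q → PkOk q d → ∀ z ∈ OmR q d,
      Sb4 d.sx d.sy (f0 q d) C (fun _ => nn q d z) z ∧
      (∀ i, |d.sx.D i (nn q d) z| ≤ C * nn q d z) ∧
      (∀ i, |d.sy.D i (nn q d) z| ≤ C * nn q d z) := by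
  by_cases he : 0 < q₀.e₁
  · obtain ⟨C, C0, hC⟩ := famR (n := n) (σ := q₀.σ) (e₁ := q₀.e₁)
      (α := {p : Cst × Pk n // p.1.b_R = q₀ ∧ 1 ≤ n ∧ RsC n p.1 ∧ PkOk p.1 p.2})
      (q := fun a => a.1.1) (d := fun a => a.1.2) he
      (fun a => ⟨a.2.2.1, a.2.2.2.1, a.2.2.2.2, show a.1.1.b_R.σ = q₀.σ by rw [a.2.1],
        show a.1.1.b_R.e₁ = q₀.e₁ by rw [a.2.1]⟩)
      (CL := q₀.phL.1) (L := q₀.L) (fun a => show a.1.1.b_R.phL.1 = q₀.phL.1 by rw [a.2.1])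
      (fun a => show a.1.1.b_R.L = q₀.L by rw [a.2.1])
    exact ⟨C, C0, fun q d h1 h2 h3 h4 z hz => hC ⟨(q, d), h1, h2, h3, h4⟩ z hz⟩
  · refine ⟨0, le_rfl, fun q d h1 h2 h3 h4 z hz => absurd ?_ he⟩
    rw [← h1]
    exact h3.e0

end Vale.Agent.P088.R2.H53.RS
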