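import Vale.Agent.P088.R2.H53.RS.Slow2
import Vale.Agent.P088.R2.H31.EP.PackL

/-!
# P088, stage 3, leaf RSf: the determinant of the slow exponential on the package
-/

open Set Filter
open scoped ContDiff Topology

noncomputable section

namespace Vale.Agent.P088.R2.H53.RS

open Vale.Agent.P088.R2.H31.EP Vale.Agent.P088.R2.H768.W

/-- **The determinant at large levels, on the package.** -/
theorem EvC.det : EvC fun q => ∀ z : ℝ × ℝ, 0 < z.2 → 0 < z.1 →
    |q.D 0 2 z * q.D 2 0 z - q.D 1 1 z ^ 2| ≤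
      q.σ / 8 * (q.D 1 0 z * q.D 2 0 z) / z.1 := by
  obtain ⟨C, hC1, H⟩ := slow2
  have h1 : EvC fun q => 0 < q.c' → 0 < q.es → 0 < q.σ → q.τ ≤ 1 ∧ 0 < q.τ ∧
      C * dl q.τ q.r₁ ≤ 1 / 100 ∧ C * q.τ ^ 2 ≤ q.σ / 8 := by
    refine EvC.at_M₀ (fun q t => 0 < q.c' → 0 < q.es → 0 < q.σ →
      slC q.c' q.es * Real.log t / t ≤ 1 ∧
      0 < slC q.c' q.es * Real.log t / t ∧
      C * dl (slC q.c' q.es * Real.log t / t) (q.c' * t / 2) ≤ 1 / 100 ∧
      C * (slC q.c' q.es * Real.log t / t) ^ 2 ≤ q.σ / 8) fun q => ?_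
    by_cases h : 0 < q.c' ∧ 0 < q.es ∧ 0 < q.σ
    · obtain ⟨N₀, h0, h2, h3⟩ := (slow_ex q.c' q.es).choose_spec h.1 h.2.1
      have h0' : 0 < slC q.c' q.es := h0
      have t1 : Tendsto (fun t : ℝ => slC q.c' q.es * Real.log t / t) atTop (𝓝 0) := by
        have := (Real.isLittleO_log_id_atTop.tendsto_div_nhds_zero).const_mul (slC q.c' q.es)
        rw [mul_zero] at this
        refine this.congr fun t => ?_
        simp only [id]
        ring
      have t1' : Tendsto (fun t : ℝ => C * (slC q.c' q.es * Real.log t / t) ^ 2) atTop (𝓝 0) := by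
        have := (t1.pow 2).const_mul C
        simpa using this
      have t2 : Tendsto (fun t : ℝ => slC q.c' q.es * q.c' / 2 * Real.log t) atTop atTop :=
        Real.tendsto_log_atTop.const_mul_atTop (by have := h.1; positivity)
      have hσ : 0 < q.σ / 8 := by have := h.2.2; positivity
      filter_upwards [t1.eventually (gt_mem_nhds one_pos), t1'.eventually (gt_mem_nhds hσ),
        t2.eventually_ge_atTop (100 * C), eventually_gt_atTop 1] with t b1 b1' b2 b3 _ _ _
      have l0 : 0 < Real.log t := Real.log_pos b3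
      have t0 : 0 < t := by linarith
      refine ⟨b1.le, by positivity, ?_, b1'.le⟩
      have e : slC q.c' q.es * Real.log t / t * (q.c' * t / 2) =
          slC q.c' q.es * q.c' / 2 * Real.log t := by
        field_simp
      show C * (slC q.c' q.es * Real.log t / t * (q.c' * t / 2))⁻¹ ≤ 1 / 100
      rw [e]
      have hx : 0 < slC q.c' q.es * q.c' / 2 * Real.log t := by
        have := h.1; positivity
      rw [← div_eq_mul_inv, div_le_iff₀ hx]
      linarith
    · exact Eventually.of_forall fun t a b c => absurd ⟨a, b, c⟩ h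
  refine (h1.and EvC.pos).mono fun q hq z hz hz1 => ?_
  obtain ⟨hq1, ⟨-, ⟨-, hσ, hc, hes, -⟩, hM, -⟩⟩ := hq
  obtain ⟨a1, a2, a3, a4⟩ := hq1 hc hes hσ
  have hr : 0 < q.r₁ := by unfold Cst.r₁; positivity
  have k := H q.τ q.r₁ a2 a1 hr a3 z hz hz1
  have C0 : 0 < C := by linarith
  have k0 : 0 ≤ q.D 1 0 z * q.D 2 0 z := by
    have h2 : 0 ≤ C * q.τ ^ 2 * (q.D 1 0 z * q.D 2 0 z) / z.1 := (abs_nonneg _).trans k
    have h3 : 0 ≤ C * q.τ ^ 2 * (q.D 1 0 z * q.D 2 0 z) := by
      by_contra hc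
      exact absurd h2 (not_le.2 (div_neg_of_neg_of_pos (not_le.1 hc) hz1))
    exact nonneg_of_mul_nonneg_right h3 (by positivity)
  exact k.trans (div_le_div_of_nonneg_right (mul_le_mul_of_nonneg_right a4 k0) hz1.le)

end Vale.Agent.P088.R2.H53.RS
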