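import Vale.Agent.P088.R2.H281.A.Win
import Vale.Agent.P088.R2.H281.EP.Prs
import Vale.Agent.P088.R2.H509.EP.Side
import Vale.Agent.P088.R2.H303.F.CerF
import Vale.Agent.P088.R2.H53.RS.Slow3
import Vale.Agent.P088.R2.H53.RS.Lt
import Vale.Agent.P088.R2.H53.RS.Cert

/-!
# P088, stage 3, leaf RSf: the open region

`OmR q d`: levels between `l₀ + 21/20 R` and `l₀ + 5/2 R`, `|x - y| > 40`, the profile is nearly
exponential, `Φ' ≥ nm e^u / 4`. The support of the leaf `RSf` is inside.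
-/

open Set Filter
open scoped ContDiff Topology Matrix

noncomputable section

namespace Vale.Agent.P088.R2.H53.RS

open Vale.Agent.P088.LR Vale.Agent.P088.HY Vale.Agent.P088.R2.H475 Vale.Agent.P088.R2.H464.Cu
open Vale.Agent.P088.R2.H31.EP Vale.Agent.P088.R2.H404.INF Vale.Agent.P088.R2.H269.INF
open Vale.Agent.P088.R2.H644.Ch Vale.Agent.P088.R2.H747.SW Vale.Agent.P088.R2.H230.W
open Vale.Agent.P088.R2.H768.FarJ Vale.Agent.P088.R2.H961.GW Vale.Agent.P088.R2.H281.A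
open Vale.Agent.P088.R2.H657.W Vale.Agent.P088.R2.H867.EP
open Vale.Agent.P088.R2.H303.F (SF SF2 PrF prf_ex)

variable {n : ℕ} {q : Cst} {d : Pk n} {z : VV n}

/-! ## The profile -/

theorem prR_far {e₁ r : ℝ} (he : 0 < e₁) (hr : prR e₁ ≤ r) : prL e₁ r = Li ∧ prE e₁ r = 0 := by
  have h := H768.FarJ.pp he
  set c : ℝ := 2 + (H644.az 2 Li rp + dp) / e₁ with hc
  have ha : 0 ≤ (H644.az 2 Li rp + dp) / e₁ :=
    div_nonneg (add_nonneg (h.δ0.le.trans (h.le_az h.r0)) h.δ0.le) h.ε0.le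
  have hr' : rp * Real.exp c ≤ r := hr
  have hr1 : rp ≤ r := by
    have : 1 ≤ Real.exp c := Real.one_le_exp (by linarith)
    nlinarith [h.r0]
  have hr0 : 0 < r := h.r0.trans_le hr1
  have hlog : c ≤ Real.log r - Real.log rp := by
    have := Real.log_le_log (mul_pos h.r0 (Real.exp_pos c)) hr'
    rw [Real.log_mul h.r0.ne' (Real.exp_pos _).ne', Real.log_exp] at this
    linarith
  have h1 : H644.ramp (Real.log r - Real.log rp - 1) = Real.log r - Real.log rp - 1 :=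
    H644.ramp_id (by linarith)
  have h2 : H644.az 2 Li r ≤ H644.az 2 Li rp := h.antitone_az h.r0 hr0 hr1
  have h3 : H644.gz 2 Li e₁ rp r ≤ -dp := by
    unfold H644.gz
    rw [h1]
    have h4 : e₁ * (c - 1) ≤ e₁ * (Real.log r - Real.log rp - 1) :=
      mul_le_mul_of_nonneg_left (by linarith) h.ε0.le
    have h5 : e₁ * (c - 1) = e₁ + (H644.az 2 Li rp + dp) := by
      rw [hc]
      field_simp [h.ε0.ne']
      ring
    linarith [h.ε0]
  have h6 : H644.gz 2 Li e₁ rp r / dp ≤ -1 := by rw [div_le_iff₀ h.δ0]; linarith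
  constructor
  · unfold prL H644.Lf
    rw [H644.ramp_zero h6]
    simp
  · unfold prE H644.ef
    rw [H644.kap_zero h6]
    ring

theorem prR_ge {e₁ : ℝ} (he : 0 < e₁) : 60 ≤ prR e₁ := by
  have h := H768.FarJ.pp he
  have ha : 0 ≤ (H644.az 2 Li rp + dp) / e₁ :=
    div_nonneg (add_nonneg (h.δ0.le.trans (h.le_az h.r0)) h.δ0.le) h.ε0.le
  unfold prR
  have h1 := Real.add_one_le_exp (2 + (H644.az 2 Li rp + dp) / e₁)
  have h2 : rp = 20 := rfl
  rw [h2] at ha h1 ⊢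
  linarith

/-! ## The conditions on the constants -/

/-- The conditions on the constants. -/
structure RsC (n : ℕ) (q : Cst) : Prop where
  win : WinC q
  e0 : 0 < q.e₁
  s0 : 0 ≤ q.es
  s1 : q.es ≤ 1 / 400
  c0 : 0 ≤ q.c'
  c1 : q.c' ≤ 1
  R1 : 160 ≤ q.R
  ε0 : 0 ≤ q.ε
  ε1 : q.ε ≤ 1
  ε2 : n * q.ε ≤ 1 / 2
  ε3 : n * (cG n 12 * q.ε) ≤ 1 / 2
  det : ∀ z : ℝ × ℝ, 0 < z.2 → 0 < z.1 →
    |q.D 0 2 z * q.D 2 0 z - q.D 1 1 z ^ 2| ≤ q.σ / 8 * (q.D 1 0 z * q.D 2 0 z) / z.1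

theorem evRs (n : ℕ) : EvC (RsC n) := by
  have h1 : EvC fun q => q.es ≤ 1 / 400 :=
    EvC.at_es (fun _ t => t ≤ 1 / 400) fun _ => sml_le (by norm_num)
  have h2 : EvC fun q => q.c' ≤ 1 := EvC.at_c' (fun _ t => t ≤ 1) fun _ => sml_le one_pos
  have h3 : EvC fun q => 160 ≤ q.R := EvC.at_R (fun _ t => 160 ≤ t) fun _ => eventually_ge_atTop _
  have h4 : EvC fun q => q.ε ≤ 1 ∧ n * q.ε ≤ 1 / 2 ∧ n * (cG n 12 * q.ε) ≤ 1 / 2 := by
    refine EvC.at_ε (fun _ t => t ≤ 1 ∧ n * t ≤ 1 / 2 ∧ n * (cG n 12 * t) ≤ 1 / 2) fun _ => ?_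
    have hc := cG_nn n 12
    have hn : (0 : ℝ) ≤ n := Nat.cast_nonneg n
    refine ev_sml (a := 1 / (2 * (1 + n) * (1 + cG n 12))) (by positivity) fun t h0 h1 => ?_
    rw [le_div_iff₀ (by positivity)] at h1
    have k1 : 0 ≤ n * t := by positivity
    have k2 : 0 ≤ cG n 12 * t := by positivity
    have k3 : 0 ≤ n * (cG n 12 * t) := by positivity
    refine ⟨?_, ?_, ?_⟩ <;> nlinarith
  refine ((evWin.and EvC.pos).and ((h1.and h2).and ((h3.and h4).and EvC.det))).mono ?_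
  rintro q ⟨⟨w, p⟩, ⟨a1, a2⟩, ⟨a3, a4⟩, a5⟩
  exact
    { win := w
      e0 := p.1.2.1
      s0 := p.2.1.2.2.2.1.le
      s1 := a1
      c0 := p.2.1.2.2.1.le
      c1 := a2
      R1 := a3
      ε0 := p.2.2.2.2.1.le
      ε1 := a4.1
      ε2 := a4.2.1
      ε3 := a4.2.2
      det := a5 }

theorem RsC.fk (h : RsC n q) (hn : 1 ≤ n) (hp : PkOk q d) : Fk n 3 1 q.σ q.e₁ q d where
  n1 := hn
  ℓ5 := by norm_num
  κ0 := one_pos
  κ1 := le_rfl
  σ0 := h.win.inf.σ0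
  σ1 := h.win.inf.σ1
  e0 := h.e0
  hσ := rfl
  he := rfl
  pk := hp
  M1 := h.win.M1
  s0 := h.s0
  s1 := by linarith [h.s1]
  c0 := h.c0
  c1 := h.c1
  R1 := h.win.inf.R1
  Rκ := by linarith [h.R1]
  ε0 := h.ε0
  ε1 := h.ε1
  ε2 := h.ε2
  ε3 := h.ε3

/-! ## The region -/

/-- The open region. -/
def OmR (q : Cst) (d : Pk n) : Set (VV n) :=
  ({z | d.l₀ q + 21 / 20 * q.R < d.l z.1} ∩ {z | d.l₀ q + 21 / 20 * q.R < d.l z.2}) ∩
  ({z | d.l₀ q + 21 / 20 * q.R < d.l (mid z)} ∩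
  ({z | d.l z.1 < d.l₀ q + 5 / 2 * q.R} ∩ {z | d.l z.2 < d.l₀ q + 5 / 2 * q.R})) ∩
  ({z | d.uth q - 1 < d.u0 z} ∩ {z | q.nm / 4 * Real.exp (d.u0 z) < deriv d.Φ (d.u0 z)}) ∩
  ({z | 1600 < qq z} ∩ {z | prL q.e₁ (√(qq z)) < 161 / 200 ∧
    prE q.e₁ (√(qq z)) < q.σ / (16 * q.R)})

theorem ct_q : Continuous (qq : VV n → ℝ) := sm_q.continuous

theorem OmR_open (he : 0 < q.e₁) (h : PkOk q d) : IsOpen (OmR q d) := by
  have hl : Continuous d.l := h.lev.sm.continuous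
  have l1 : Continuous fun z : VV n => d.l z.1 := hl.comp continuous_fst
  have l2 : Continuous fun z : VV n => d.l z.2 := hl.comp continuous_snd
  have l3 : Continuous fun z : VV n => d.l (mid z) := by
    refine hl.comp ?_
    unfold mid
    fun_prop
  have l4 : Continuous fun z : VV n => d.u0 z := l1.add l2
  have l5 : Continuous fun z : VV n => deriv d.Φ (d.u0 z) :=
    (contDiff_infty_iff_deriv.1 h.top.sm).2.continuous.comp l4
  have l6 : Continuous fun z : VV n => q.nm / 4 * Real.exp (d.u0 z) :=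
    continuous_const.mul (Real.continuous_exp.comp l4)
  have o1 : IsOpen ({z : VV n | 1600 < qq z} ∩ {z | prL q.e₁ (√(qq z)) < 161 / 200 ∧
      prE q.e₁ (√(qq z)) < q.σ / (16 * q.R)}) := by
    have hO : IsOpen {z : VV n | 1600 < qq z} := isOpen_lt continuous_const ct_q
    have hP := H768.FarJ.pp he
    have cs : ContinuousOn (fun z : VV n => √(qq z)) {z : VV n | 1600 < qq z} :=
      ct_q.sqrt.continuousOn
    have hm : MapsTo (fun z : VV n => √(qq z)) {z : VV n | 1600 < qq z} (Ioi 0) := fun z hz =>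
      Real.sqrt_pos.2 (lt_trans (by norm_num) hz)
    have c1 : ContinuousOn (fun z : VV n => prL q.e₁ (√(qq z))) {z : VV n | 1600 < qq z} :=
      hP.contDiffOn_Lf.continuousOn.comp cs hm
    have c2 : ContinuousOn (fun z : VV n => prE q.e₁ (√(qq z))) {z : VV n | 1600 < qq z} :=
      hP.contDiffOn_ef.continuousOn.comp cs hm
    have k1 := c1.isOpen_inter_preimage hO (isOpen_Iio (a := (161 / 200 : ℝ)))
    have k2 := c2.isOpen_inter_preimage hO (isOpen_Iio (a := q.σ / (16 * q.R)))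
    have e : {z : VV n | 1600 < qq z} ∩ {z | prL q.e₁ (√(qq z)) < 161 / 200 ∧
        prE q.e₁ (√(qq z)) < q.σ / (16 * q.R)} =
        ({z : VV n | 1600 < qq z} ∩ (fun z : VV n => prL q.e₁ (√(qq z))) ⁻¹' Iio (161 / 200)) ∩
        ({z : VV n | 1600 < qq z} ∩ (fun z : VV n => prE q.e₁ (√(qq z))) ⁻¹'
          Iio (q.σ / (16 * q.R))) := by
      ext z
      simp only [mem_inter_iff, mem_ofPred_eq, mem_preimage, mem_Iio]
      tauto
    rw [e]
    exact k1.inter k2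
  exact (((isOpen_lt continuous_const l1).inter (isOpen_lt continuous_const l2)).inter
    ((isOpen_lt continuous_const l3).inter ((isOpen_lt l1 continuous_const).inter
      (isOpen_lt l2 continuous_const)))).inter ((isOpen_lt continuous_const l4).inter
        (isOpen_lt l6 l5)) |>.inter o1

/-! ## The tensors and the distance -/

theorem s_one (hn : 1 ≤ n) (hq : InfC q) (h : PkOk q d) {x : V n}
    (hx : d.l₀ q + 21 / 20 * q.R ≤ d.l x) : d.s₁ x = 1 ∧ d.s₂ x = 1 := by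
  have hR := hq.R0
  rw [h.lev.lit] at hx
  have h1 := en_gt_of_levG hn hq.σ0 hq.σ1 hR hx
  refine h.rg.of x ?_
  intro hc
  have h2 : HY.sq (x - 0) < (2 * q.R) ^ 2 := hc
  rw [sub_zero] at h2
  have h3 := Real.lt_sqrt (x := 2 * q.R) (y := HY.sq x) (by positivity) |>.1 h1
  linarith

theorem s1_ev (hn : 1 ≤ n) (hq : InfC q) (h : PkOk q d) {x : V n}
    (hx : d.l₀ q + 21 / 20 * q.R < d.l x) :
    (∀ᶠ y in 𝓝 x, ∀ i j, d.s₁ y i j = (1 : Matrix (Fin n) (Fin n) ℝ) i j) ∧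
    ∀ᶠ y in 𝓝 x, ∀ i j, d.s₂ y i j = (1 : Matrix (Fin n) (Fin n) ℝ) i j := by
  have hl : Continuous d.l := h.lev.sm.continuous
  constructor
  · filter_upwards [(isOpen_lt continuous_const hl).mem_nhds hx] with y hy i j
    rw [(s_one hn hq h (le_of_lt hy)).1]
  · filter_upwards [(isOpen_lt continuous_const hl).mem_nhds hx] with y hy i j
    rw [(s_one hn hq h (le_of_lt hy)).2]

theorem r2_eq (hn : 1 ≤ n) (hq : InfC q) (h : PkOk q d)
    (hz : d.l₀ q + 21 / 20 * q.R ≤ d.l (mid z)) : H31.EP.r2 (gi d.s₁) z = qq z := by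
  have e : gi d.s₁ (mid z) = 1 := by
    unfold gi
    rw [(s_one hn hq h hz).1, inv_one]
  unfold H31.EP.r2 rq bf
  rw [e]
  simp only [Matrix.one_apply, ite_mul, one_mul, zero_mul, Finset.sum_ite_eq, Finset.mem_univ,
    if_true]
  unfold H31.EP.qq HY.sq
  rw [← mul_assoc]
  norm_num
  exact Finset.sum_congr rfl fun i _ => by unfold dif; rw [Pi.sub_apply]; ring

/-! ## The level -/

theorem wR_ge (hq : InfC q) (h : PkOk q d) {x : V n} (hx : d.l₀ q ≤ d.l x) :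
    1 ≤ HY.sq (wR n q.σ q.R x) := by
  have hR := hq.R0
  have h0 := hq.σ0
  have hL := lvG hq h
  have h2 : 0 ≤ H475.gg n q.σ (q.R⁻¹ • x) := by
    rw [hL.gl]
    exact div_nonneg (by linarith) hR.le
  have h3 := th1_le_of_gg h0 hq.σ1 (y := q.R⁻¹ • x) (by linarith)
  rw [gg_lit h0 hq.σ1 h3, le_div_iff₀ (by linarith)] at h2
  show 1 ≤ HY.sq (wv n q.σ (q.R⁻¹ • x))
  linarith

theorem pp'_one (h0 : 0 < q.σ) (h1 : q.σ ≤ 1 / 5000) {θ : ℝ} (h : 1 ≤ θ) : pp' q.σ θ = 0 := by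
  have h2 : th1 q.σ < θ := (th1_lt h0 h1).trans_le h
  have h3 := hasDerivAt_pp (σ := q.σ) (θ := θ) (by linarith)
  have h4 : pp q.σ =ᶠ[𝓝 θ] fun _ => (1 : ℝ) := by
    filter_upwards [lt_mem_nhds h2] with t ht
    exact pp_one h0 h1 (le_of_lt ht)
  exact h3.unique ((hasDerivAt_const θ (1 : ℝ)).congr_of_eventuallyEq h4)

/-- **The Hessian of the level.** -/
theorem hess (hq : InfC q) (h : PkOk q d) {x : V n} (hx : d.l₀ q ≤ d.l x) (i j : Fin n) :
    pd i (pd j d.l) x = if i = j then q.σ / q.R else 0 := by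
  have hw := wR_ge hq h hx
  rw [h.lev.lit, pd2_levG hq.σ0 hq.σ1 hq.R0, pp'_one hq.σ0 hq.σ1 hw,
    pp_one hq.σ0 hq.σ1 ((th1_lt hq.σ0 hq.σ1).le.trans hw)]
  by_cases hij : i = j
  · subst hij; simp
  · have : ¬ j = i := fun e => hij e.symm
    simp [hij, this]

/-- The gradient of the level. -/
theorem grad_ge (hq : InfC q) (h : PkOk q d) {x : V n} (hx : d.l₀ q ≤ d.l x) :
    (24 / 25) ^ 2 ≤ ∑ i, pd i d.l x ^ 2 := by
  have hw := wR_ge hq h hx
  rw [h.lev.lit]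
  refine grad_levG_ge hq.σ0 hq.σ1 hq.R0 ?_
  have : √1 ≤ √(HY.sq (wR n q.σ q.R x)) := Real.sqrt_le_sqrt hw
  rw [Real.sqrt_one] at this
  linarith

/-! ## The support -/

/-- `|mid - x| = |x - y| / 2`. -/
theorem en_mid (z : VV n) : √(HY.sq (mid z - z.1)) = 1 / 2 * √(HY.sq (z.1 - z.2)) := by
  have e : mid z - z.1 = (-(1 / 2) : ℝ) • (z.1 - z.2) := by
    funext i
    simp only [Pi.sub_apply, Pi.smul_apply, mid_apply, smul_eq_mul]
    ring
  rw [e, en_smul, abs_neg, abs_of_pos (by norm_num)]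

theorem wv_mid (z : VV n) (σ R : ℝ) : wR n σ R (mid z) =
    (1 / 2 : ℝ) • (wR n σ R z.1 + wR n σ R z.2) := by
  funext i
  simp only [wR, wv, mid_apply, Pi.smul_apply, Pi.add_apply, smul_eq_mul]
  ring

theorem mid_near (hq : InfC q) (h : PkOk q d)
    (hn : NearOk q.κ₁ q.σ q.R (d.l₀ q) (H475.gg n q.σ) d.l z) :
    H475.gg n q.σ (q.R⁻¹ • z.1) - 1 / 100 ≤ H475.gg n q.σ (q.R⁻¹ • mid z) := by
  have hR := hq.R0
  have h0 := hq.σ0
  have hL := lvG hq h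
  have t1 := hL.g.t_le h0 (by norm_num) hn.g1
  have t2 := hL.g.t_le h0 (by norm_num) hn.g2
  have hσ := hq.σ1
  have t3 : √(HY.sq (wv n q.σ (q.R⁻¹ • mid z))) ≤ 101 / 100 := by
    have e : wv n q.σ (q.R⁻¹ • mid z) =
        (1 / 2 : ℝ) • (wv n q.σ (q.R⁻¹ • z.1) + wv n q.σ (q.R⁻¹ • z.2)) := wv_mid z q.σ q.R
    rw [e, en_smul, abs_of_pos (by norm_num)]
    have := en_add (wv n q.σ (q.R⁻¹ • z.1)) (wv n q.σ (q.R⁻¹ • z.2))
    linarith
  have k := hL.g.lip (q.R⁻¹ • mid z) (q.R⁻¹ • z.1) t3 (by linarith)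
  rw [en_div hR, en_mid] at k
  have k2 : 1 / 2 * √(HY.sq (z.1 - z.2)) / q.R ≤ 3 / 8 * q.κ₁ := by
    rw [div_le_iff₀ hR]
    linarith [hn.q]
  have k3 := hq.κ1
  have := (abs_le.1 k).1
  linarith

/-- What is known on the support. -/
structure SuR (q : Cst) (d : Pk n) (z : VV n) : Prop where
  near : NearOk q.κ₁ q.σ q.R (d.l₀ q) (H475.gg n q.σ) d.l z
  r : prR q.e₁ ^ 2 ≤ d.r2 z
  u : d.uth q ≤ d.u q z
  N : q.nm * d.E q z ≤ d.N q z

theorem rsf_su (n : ℕ) : EvC fun q => ∀ d : Pk n, PkOk q d →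
    ∀ z ∈ tsupport (d.ch q .RSf), SuR q d z := by
  refine (evWin.and (EvC.litSm n)).mono fun q hq d h z hz => ?_
  obtain ⟨hw, hS⟩ := hq
  have hs := hS d h
  have hu := hs.u.continuous
  have hr : Continuous d.r2 := continuous_const.mul hs.rq.continuous
  have h1 : Continuous fun z => d.N q z := h.Φ's.continuous.comp hu
  have h2 : Continuous fun z => q.nm * d.E q z :=
    continuous_const.mul (Real.continuous_exp.comp hu)
  have hc : IsClosed ({z : VV n | prR q.e₁ ^ 2 ≤ d.r2 z} ∩ ({z | d.uth q ≤ d.u q z} ∩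
      {z | q.nm * d.E q z ≤ d.N q z})) :=
    (isClosed_le continuous_const hr).inter ((isClosed_le continuous_const hu).inter
      (isClosed_le h2 h1))
  have k := closure_minimal (s := Function.support (d.ch q .RSf)) (fun w hw' => ?_) hc hz
  · exact ⟨near_supp hw.inf h rfl hz, k.1, k.2.1, k.2.2⟩
  · have ha := Function.mem_support.1 hw'
    have b := sd_RS ha (Or.inr rfl) (by linarith [hw.nm]) (h.N_pos hw.M1 _)
    exact ⟨sd_RSf ha hs.cp, b.2.le, b.1.le⟩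

/-- **The support is inside.** -/
theorem su_Om (hn : 1 ≤ n) (hq : RsC n q) (h : PkOk q d) (s : SuR q d z) : z ∈ OmR q d := by
  have hi := hq.win.inf
  have hR := hi.R0
  have hR1 := hq.R1
  have h0 := hi.σ0
  have hκ := hi.κ1
  have hL := lvG hi h
  have a1 := (gl_le hi h).1 s.near.g1
  have a2 := (gl_le hi h).1 s.near.g2
  have a3 := (abs_le.1 (u_near h z)).2
  have a4 := s.u
  have a5 : 2 * d.l₀ q + 22 / 10 * q.R - 1 / 4 ≤ d.l z.1 + d.l z.2 := by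
    unfold Pk.u0 at a3
    unfold Pk.uth at a4
    linarith
  have e1 := hL.eq z.1
  have e2 := hL.eq z.2
  have e3 := hL.eq (mid z)
  obtain ⟨d1, d2⟩ := abs_le.1 s.near.dg
  set g1 := H475.gg n q.σ (q.R⁻¹ • z.1)
  set g2 := H475.gg n q.σ (q.R⁻¹ • z.2)
  have b1 : 22 / 10 - 1 / 400 ≤ g1 + g2 := by
    by_contra hc
    have := mul_lt_mul_of_pos_left (not_le.1 hc) hR
    nlinarith
  have b2 : 108 / 100 ≤ g1 := by linarith
  have b3 : 108 / 100 ≤ g2 := by linarith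
  have b4 := mid_near hi h s.near
  have c1 : d.l₀ q + 21 / 20 * q.R < d.l z.1 := by rw [e1]; nlinarith
  have c2 : d.l₀ q + 21 / 20 * q.R < d.l z.2 := by rw [e2]; nlinarith
  have c3 : d.l₀ q + 21 / 20 * q.R < d.l (mid z) := by
    have b5 : 107 / 100 ≤ H475.gg n q.σ (q.R⁻¹ • mid z) := by linarith
    rw [e3]; nlinarith
  have c4 : d.r2 z = qq z := r2_eq hn hi h c3.le
  have c5 := prR_ge hq.e0
  have c6 := s.r
  rw [c4] at c6
  have c7 : prR q.e₁ ≤ √(qq z) := Real.le_sqrt_of_sq_le c6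
  obtain ⟨c8, c9⟩ := prR_far hq.e0 c7
  have c10 : d.u q z = d.u0 z := by
    have : d.χ (H31.EP.r2 (gi d.s₁) z) = 0 := h.χ0 _ (by
      have c4' : H31.EP.r2 (gi d.s₁) z = qq z := c4
      rw [c4']; nlinarith)
    show d.l z.1 + d.l z.2 + 2 * (d.χ (H31.EP.r2 (gi d.s₁) z) * d.μc q (d.l (mid z))) = _
    rw [this, zero_mul, mul_zero, add_zero]
    rfl
  have c11 := s.N
  unfold Pk.E Pk.N at c11
  rw [c10] at c11 a4
  have c12 := Real.exp_pos (d.u0 z)
  have c13 := hq.win.nm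
  refine ⟨⟨⟨⟨c1, c2⟩, c3, ?_, ?_⟩, ?_, ?_⟩, ?_, ?_, ?_⟩
  · show d.l z.1 < d.l₀ q + 5 / 2 * q.R
    linarith
  · show d.l z.2 < d.l₀ q + 5 / 2 * q.R
    linarith
  · show d.uth q - 1 < d.u0 z
    linarith
  · show q.nm / 4 * Real.exp (d.u0 z) < deriv d.Φ (d.u0 z)
    nlinarith [mul_pos (by linarith : 0 < q.nm) c12]
  · show 1600 < qq z
    nlinarith
  · rw [c8]; norm_num [Li]
  · rw [c9]; positivity

end Vale.Agent.P088.R2.H53.RS
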