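import Vale.Agent.P088.R2.H53.RS.Fam

/-!
# P088, stage 3, leaf RSf: the certificate and the gradient on the package
-/

open Set Filter
open scoped ContDiff Topology Matrix

noncomputable section

namespace Vale.Agent.P088.R2.H53.RS

open Vale.Agent.P088.LR Vale.Agent.P088.HY Vale.Agent.P088.R2.H475 Vale.Agent.P088.R2.H464.Cu
open Vale.Agent.P088.R2.H31.EP Vale.Agent.P088.R2.H404.INF
open Vale.Agent.P088.R2.H269.INF (f0 nn Sb4 Sb5 fr0)
open Vale.Agent.P088.R2.H644.Ch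
open Vale.Agent.P088.R2.H768.FarJ Vale.Agent.P088.R2.H961.GW Vale.Agent.P088.R2.H960.W
open Vale.Agent.P088.R2.H230.W (wt Wd D_wt)
open Vale.Agent.P088.R2.H747.SW (ss)
open Vale.Agent.P088.R2.H303.F (SF SF2 PrF prf_ex jφ_eq)

variable {n : ℕ} {q : Cst} {d : Pk n} {z : VV n}

/-- The data at one package. -/
abbrev Rq (n : ℕ) (q : Cst) (d : Pk n) : Prop := Rk n q.σ q.e₁ q d

theorem Rq.of (hn : 1 ≤ n) (h : RsC n q) (hp : PkOk q d) : Rq n q d := ⟨hn, h, hp, rfl, rfl⟩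

theorem sm_R (h : Rq n q d) :
    Sm (OmR q d) (uf d.l) ∧ Sm (OmR q d) (jφ q d) ∧ Sm (OmR q d) (jr d) ∧
    ∀ z ∈ OmR q d, 40 ≤ jr d z ∧ jr d z ^ 2 = qq z ∧ jr d z = √(qq z) := by
  have k := symR (α := Unit) (q := fun _ => q) (d := fun _ => d) h.rs.e0 fun _ => h
  refine ⟨k.1 (), k.2.1 (), k.2.2.1 (), fun z hz => ?_⟩
  have h1 := om_q hz
  have h2 : jr d z = √(qq z) := by unfold jr; rw [h.r2q hz]
  refine ⟨?_, ?_, h2⟩
  · rw [h2]
    exact Real.le_sqrt_of_sq_le (by linarith)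
  · rw [h2, Real.sq_sqrt (by linarith)]

/-- The weight. -/
theorem W_R (h : Rq n q d) (hz : z ∈ OmR q d) : d.W q z = f0 q d z := by
  have hR := h.fk.R0
  have l1 := om_x' hz
  have l2 := om_y' hz
  have px : d.P z.1 = z.1 := h.pk.ret.id _ (by linarith)
  have py : d.P z.2 = z.2 := h.pk.ret.id _ (by linarith)
  have t1 : d.Θ (d.l z.1) = 0 := h.pk.Θ0 _ (by linarith)
  have t2 : d.Θ (d.l z.2) = 0 := h.pk.Θ0 _ (by linarith)
  have hr : 1600 < H31.EP.r2 (gi d.s₁) z := by rw [h.r2q hz]; exact om_q hz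
  have hr0 : 0 < H31.EP.r2 (gi d.s₁) z := by linarith
  have hu : H31.EP.uu (d.F q) d.l (gi d.s₁) z = uf d.l z := by
    have : d.χ (H31.EP.r2 (gi d.s₁) z) = 0 := h.pk.χ0 _ (by linarith)
    show d.l z.1 + d.l z.2 + 2 * (d.χ (H31.EP.r2 (gi d.s₁) z) * d.μc q (d.l (mid z))) = _
    rw [this, zero_mul, mul_zero, add_zero]
    rfl
  show WW (d.F q) d.l (gi d.s₁) (d.P z.1, d.P z.2) + (d.Θ (d.l z.1) + d.Θ (d.l z.2)) = _
  rw [px, py, t1, t2, add_zero, add_zero]
  have e : ((z.1, z.2) : VV n) = z := rfl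
  rw [e]
  unfold WW
  rw [hu, st_out h.pk.ok hr0]
  show d.Φ (uf d.l z) + 1 * q.D 0 0 (uf d.l z + Real.log (prS q.e₁ (H31.EP.r2 (gi d.s₁) z)),
    √(H31.EP.r2 (gi d.s₁) z)) = _
  rw [one_mul]
  rfl

/-- The letter. -/
theorem m_R (h : Rq n q d) (hz : z ∈ OmR q d) : mRSf d q z = q.σ / (2 * q.R) * nn q d z := by
  unfold mRSf H269.INF.nn jφ jr
  rw [h.r2q hz]
  rfl

/-- The data of the weight. -/
theorem wd_R {R₁ : ℝ} (h : Rq n q d) (hP : PrF q.e₁ R₁) :
    Wd (OmR q d) d.Φ (deriv d.Φ) (deriv (deriv d.Φ)) (SF q.e₁) (prL q.e₁) (SF2 q.e₁)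
      (fun i j f r => q.D i j (f, r)) (uf d.l) (jr d) := by
  obtain ⟨su, sφ, sr, r0⟩ := sm_R h
  have p0 : ∀ z ∈ OmR q d, 0 < jr d z := fun z hz => by linarith [(r0 z hz).1]
  have eφ : ∀ z ∈ OmR q d, uf d.l z + SF q.e₁ (jr d z) = jφ q d z := fun z hz =>
    (jφ_eq z (by rw [h.r2q hz]; linarith [om_q hz])).symm
  have sφ' : Sm (OmR q d) fun z => uf d.l z + SF q.e₁ (jr d z) := sφ.congr eφ
  have sS : Sm (OmR q d) fun z => SF q.e₁ (jr d z) :=
    (sφ.sub su).congr fun z hz => by rw [← eφ z hz]; ring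
  have hsD : ∀ i j, Sm (OmR q d) fun z => q.D i j (uf d.l z + SF q.e₁ (jr d z), jr d z) :=
    fun i j => (h.pk.sl.sm i j).comp (sφ'.prodMk sr) fun z hz => p0 z hz
  have c1 : ∀ {f : ℝ → ℝ}, ContDiff ℝ ∞ f → ContDiff ℝ ∞ (deriv f) := fun h =>
    (contDiff_infty_iff_deriv.1 h).2
  have d1 : ∀ {f : ℝ → ℝ}, ContDiff ℝ ∞ f → ∀ t, HasDerivAt f (deriv f t) t := fun h t =>
    (h.differentiable (by simp) t).hasDerivAt
  have hΦ := h.pk.top.sm
  exact
    { cu := Cp.of su hΦ (c1 hΦ) (d1 hΦ) (d1 (c1 hΦ))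
      cr :=
        { su := sr
          s0 := sS
          s1 := hP.smL.comp sr fun z hz => p0 z hz
          d1 := fun z hz => hP.dS1 (p0 z hz)
          d2 := fun z hz => hP.dS2 (p0 z hz) }
      cD :=
        { sf := sφ'
          sr := sr
          s00 := hsD 0 0
          s10 := hsD 1 0
          s01 := hsD 0 1
          d := fun i j _ z hz => h.pk.sl.hd i j (uf d.l z + SF q.e₁ (jr d z), jr d z)
            (p0 z hz) } }

theorem W_wt (h : Rq n q d) (hz : z ∈ OmR q d) :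
    d.W q z = wt d.Φ (SF q.e₁) (fun i j f r => q.D i j (f, r)) (uf d.l) (jr d) z := by
  rw [W_R h hz]
  unfold f0 H230.W.wt
  rw [jφ_eq z (by rw [h.r2q hz]; linarith [om_q hz])]

/-- The numbers at a point. -/
theorem num_R (h : Rq n q d) (hz : z ∈ OmR q d) :
    2 * q.R ≤ jφ q d z ∧ 0 < deriv d.Φ (uf d.l z) ∧ 0 < q.D 1 0 (jφ q d z, jr d z) := by
  have hi := h.rs.win.inf
  have hR := h.rs.R1
  obtain ⟨-, -, -, r0⟩ := sm_R h
  obtain ⟨r1, r2, r3⟩ := r0 z hz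
  refine ⟨?_, h.pk.N_pos h.fk.M1 _, h.pk.sl.G_pos _ (by show 0 < jr d z; linarith)⟩
  have h1 := om_u hz
  have h2 := l₀_nonneg hi h.pk
  unfold Pk.uth at h1
  have h3 : 1 / 2 ≤ prS q.e₁ (qq z) := by
    have a1 := H281.EP.prS_mono h.rs.e0 (show (1 : ℝ) ∈ Ici (0 : ℝ) by norm_num)
      (show qq z ∈ Ici (0 : ℝ) from by
        have := om_q hz
        show 0 ≤ qq z
        linarith) (by have := om_q hz; linarith)
    have a2 := H281.EP.prS_ge1 h.rs.e0 zero_le_one (le_refl (1 : ℝ))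
    linarith
  have h4 : Real.log (1 / 2) ≤ Real.log (prS q.e₁ (qq z)) := Real.log_le_log (by norm_num) h3
  have h5 : -1 ≤ Real.log (1 / 2) := by
    rw [Real.le_log_iff_exp_le (by norm_num)]
    have := Real.exp_one_gt_d9
    rw [Real.exp_neg]
    rw [inv_le_comm₀ (Real.exp_pos 1) (by norm_num)]
    linarith
  have h6 : jφ q d z = d.u0 z + Real.log (prS q.e₁ (qq z)) := by
    unfold jφ
    rw [h.r2q hz]
    rfl
  rw [h6]
  linarith

/-- **The certificate.** -/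
theorem cert_R (h : Rq n q d) (hz : z ∈ OmR q d) (A B : Fin n → ℝ) :
    mRSf d q z * ss d.sx A z + mRSf d q z * ss d.sy B z ≤ TH d.sx d.sy (d.W q) z A B := by
  obtain ⟨R₁, hP⟩ := prf_ex h.rs.e0
  have hi := h.rs.win.inf
  have hR := h.fk.R0
  have hσ := h.fk.σ0
  obtain ⟨-, -, -, r0⟩ := sm_R h
  obtain ⟨r1, r2, r3⟩ := r0 z hz
  have rp : 0 < jr d z := by linarith
  obtain ⟨n1, n2, n3⟩ := num_R h hz
  have sl := h.pk.sl
  have w := wd_R h hP
  have f1 := (s1_ev h.n1 hi h.pk (om_x hz)).1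
  have f2 := (s1_ev h.n1 hi h.pk (om_y hz)).2
  have e1 : TH d.sx d.sy (d.W q) z A B = TH (fx n) (fy n) (d.W q) z A B := TH_one f1 f2 A B
  have e2 : TH (fx n) (fy n) (d.W q) z A B = TH (fx n) (fy n)
      (wt d.Φ (SF q.e₁) (fun i j f r => q.D i j (f, r)) (uf d.l) (jr d)) z A B :=
    TH_cg h.op (fun w hw => W_wt h hw) hz _ _ A B
  have e3 : ss d.sx A z = ∑ i, A i ^ 2 := ss_x (fun i j => f1.self_of_nhds i j) A
  have e4 : ss d.sy B z = ∑ i, B i ^ 2 := ss_y (fun i j => f2.self_of_nhds i j) B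
  have eφ := jφ_eq (q := q) (d := d) z (by rw [h.r2q hz]; linarith [om_q hz])
  have hl0 : d.l₀ q ≤ d.l z.1 := by have := om_x hz; linarith
  have hl1 : d.l₀ q ≤ d.l z.2 := by have := om_y hz; linarith
  have hG := sl.G_pos (jφ q d z, jr d z) rp
  have h20 := sl.g_pos (jφ q d z, jr d z) rp
  have k01 := sl.mu (jφ q d z, jr d z) rp
  have det := h.rs.det (jφ q d z, jr d z) rp (by show 0 < jφ q d z; linarith)
  have key := cert (z := z) (a := q.σ / q.R) h.op w hz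
    (fun w hw => ((r0 w hw).2.1 : jr d w ^ 2 = qq w)) (fun w hw => by linarith [(r0 w hw).1])
    (by positivity) (fun A B => TH_u h.pk.lev.sm (hess hi h.pk hl0) (hess hi h.pk hl1) A B)
    n2.le (h.pk.top.k0 _).le (by rw [← eφ]; exact hG.le) (by rw [← eφ]; exact h20)
    (by
      have : Li ≤ prL q.e₁ (jr d z) := hP.Li_le _
      have e : Li = 4 / 5 := rfl
      linarith)
    (by
      rw [← eφ]
      refine k01.trans ?_
      have := h.rs.s1
      exact mul_le_mul_of_nonneg_right (by linarith) hG.le)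
    (by
      have a1 : 0 ≤ prE q.e₁ (jr d z) := hP.e_nonneg _ rp
      have a2 := om_E hz
      have a3 := om_L hz
      rw [← r3] at a2 a3
      have a4 : 0 < prL q.e₁ (jr d z) := hP.Li_pos.trans_le (hP.Li_le _)
      have e : q.σ / q.R / 16 = q.σ / (16 * q.R) := by field_simp
      rw [e]
      unfold H303.F.SF2
      rw [abs_div, abs_mul, abs_neg, abs_of_nonneg a1, abs_of_pos a4, abs_of_pos rp]
      rw [div_le_iff₀ rp]
      have b1 : prE q.e₁ (jr d z) * prL q.e₁ (jr d z) ≤ q.σ / (16 * q.R) * 1 :=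
        mul_le_mul a2.le (by linarith) a4.le (by positivity)
      have b2 : q.σ / (16 * q.R) * 1 ≤ q.σ / (16 * q.R) * jr d z :=
        mul_le_mul_of_nonneg_left (by linarith) (by positivity)
      linarith)
    (by
      rw [← eφ]
      refine det.trans ?_
      have p0 : 0 ≤ q.D 1 0 (jφ q d z, jr d z) * q.D 2 0 (jφ q d z, jr d z) := by positivity
      have f0 : 0 < jφ q d z := by linarith
      rw [div_le_iff₀ f0]
      have c1 : q.σ / 8 ≤ q.σ / q.R / 16 * jφ q d z := by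
        calc q.σ / 8 = q.σ / q.R / 16 * (2 * q.R) := by field_simp; norm_num
          _ ≤ _ := mul_le_mul_of_nonneg_left n1 (by positivity)
      calc q.σ / 8 * (q.D 1 0 (jφ q d z, jr d z) * q.D 2 0 (jφ q d z, jr d z))
          ≤ q.σ / q.R / 16 * jφ q d z *
            (q.D 1 0 (jφ q d z, jr d z) * q.D 2 0 (jφ q d z, jr d z)) :=
            mul_le_mul_of_nonneg_right c1 p0
        _ = _ := by ring)
    A B
  rw [← eφ] at key
  rw [e1, e2, e3, e4, m_R h hz]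
  refine le_trans (le_of_eq ?_) key
  unfold H269.INF.nn
  field_simp

/-- The derivatives of `r`. -/
theorem D_r (h : Rq n q d) (hz : z ∈ OmR q d) (i : Fin n) :
    (fx n).D i (jr d) z = (z.1 i - z.2 i) / jr d z ∧
    (fy n).D i (jr d) z = -(z.1 i - z.2 i) / jr d z := by
  obtain ⟨-, -, sr, r0⟩ := sm_R h
  obtain ⟨r1, -, -⟩ := r0 z hz
  have rp : jr d z ≠ 0 := by linarith
  have e1 : (fx n).D i (fun w => jr d w * jr d w) z = (fx n).D i H644.qq z :=
    D_congr _ h.op (fun w hw => by rw [← pow_two, (r0 w hw).2.1]; rfl) i hz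
  have e2 : (fy n).D i (fun w => jr d w * jr d w) z = (fy n).D i H644.qq z :=
    D_congr _ h.op (fun w hw => by rw [← pow_two, (r0 w hw).2.1]; rfl) i hz
  rw [D_mul (fx n) h.op sr sr i hz, fx_D, fx_D, H644.dx_qq] at e1
  rw [D_mul (fy n) h.op sr sr i hz, fy_D, fy_D, H644.dy_qq] at e2
  rw [fx_D, fy_D]
  have e3 : H644.qv i z = z.1 i - z.2 i := rfl
  rw [e3] at e1 e2
  constructor
  · rw [eq_div_iff rp]; linarith
  · rw [eq_div_iff rp]; linarith

theorem F_x (h : ∀ i j, d.s₁ z.1 i j = (1 : Matrix (Fin n) (Fin n) ℝ) i j) (f : VV n → ℝ) :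
    d.sx.F f z = ∑ i, d.sx.D i f z ^ 2 := ss_x h fun i => d.sx.D i f z

theorem F_y (h : ∀ i j, d.s₂ z.2 i j = (1 : Matrix (Fin n) (Fin n) ℝ) i j) (f : VV n → ℝ) :
    d.sy.F f z = ∑ i, d.sy.D i f z ^ 2 := ss_y h fun i => d.sy.D i f z

/-- The arithmetic of the gradient. -/
theorem grad_alg {g v : V n} {N G b r : ℝ} (hN : 0 ≤ N) (hG : 0 < G)
    (hg : (24 / 25) ^ 2 ≤ ∑ i, g i ^ 2) (hb : |b| ≤ 81 / 100 * G) (hr : 0 < r)
    (hv : HY.sq v = r ^ 2) :
    (3 / 20) ^ 2 * (N + G) ^ 2 ≤ ∑ i, ((N + G) * g i + b * (v i / r)) ^ 2 := by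
  have h1 : 24 / 25 ≤ √(HY.sq g) := Real.le_sqrt_of_sq_le hg
  have h2 : √(HY.sq ((b / G / r) • v)) ≤ 81 / 100 := by
    rw [en_smul, hv, Real.sqrt_sq hr.le, abs_div, abs_div, abs_of_pos hG, abs_of_pos hr,
      div_mul_cancel₀ _ hr.ne', div_le_iff₀ hG]
    exact hb
  have h3 := comb_ge hN hG.le h1 h2
  have h4 : HY.sq (N • g + G • (g + (b / G / r) • v)) =
      ∑ i, ((N + G) * g i + b * (v i / r)) ^ 2 := by
    unfold HY.sq
    refine Finset.sum_congr rfl fun i _ => ?_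
    simp only [Pi.add_apply, Pi.smul_apply, smul_eq_mul]
    congr 1
    field_simp
    ring
  rw [← h4]
  have h5 : 3 / 20 * (N + G) ≤ √(HY.sq (N • g + G • (g + (b / G / r) • v))) := by linarith
  have h6 := pow_le_pow_left₀ (by positivity) h5 2
  rw [Real.sq_sqrt (sq0 _)] at h6
  linarith

/-- **The gradient of the weight.** -/
theorem F_R (h : Rq n q d) (hz : z ∈ OmR q d) :
    (3 / 20) ^ 2 * nn q d z ^ 2 ≤ d.sx.F (d.W q) z ∧
    (3 / 20) ^ 2 * nn q d z ^ 2 ≤ d.sy.F (d.W q) z := by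
  obtain ⟨R₁, hP⟩ := prf_ex h.rs.e0
  have hi := h.rs.win.inf
  obtain ⟨-, -, -, r0⟩ := sm_R h
  obtain ⟨r1, r2, r3⟩ := r0 z hz
  have rp : 0 < jr d z := by linarith
  obtain ⟨n1, n2, n3⟩ := num_R h hz
  have w := wd_R h hP
  have f1 := (s1_ev h.n1 hi h.pk (om_x hz)).1.self_of_nhds
  have f2 := (s1_ev h.n1 hi h.pk (om_y hz)).2.self_of_nhds
  have eφ := jφ_eq (q := q) (d := d) z (by rw [h.r2q hz]; linarith [om_q hz])
  have hl0 : d.l₀ q ≤ d.l z.1 := by have := om_x hz; have := h.fk.R0; linarith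
  have hl1 : d.l₀ q ≤ d.l z.2 := by have := om_y hz; have := h.fk.R0; linarith
  have dl : Differentiable ℝ d.l := h.pk.lev.sm.differentiable (by simp)
  set b := q.D 1 0 (jφ q d z, jr d z) * prL q.e₁ (jr d z) + q.D 0 1 (jφ q d z, jr d z) with hb
  have hbb : |b| ≤ 81 / 100 * q.D 1 0 (jφ q d z, jr d z) := by
    have a1 : 0 < prL q.e₁ (jr d z) := hP.Li_pos.trans_le (hP.Li_le _)
    have a2 := om_L hz
    rw [← r3] at a2
    have a3 := h.pk.sl.mu (jφ q d z, jr d z) rp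
    have a4 := h.rs.s1
    have a5 := mul_le_mul_of_nonneg_right a4 n3.le
    have a6 := mul_lt_mul_of_pos_left a2 n3
    have a7 : |q.D 1 0 (jφ q d z, jr d z) * prL q.e₁ (jr d z)| =
      q.D 1 0 (jφ q d z, jr d z) * prL q.e₁ (jr d z) := abs_of_pos (mul_pos n3 a1)
    have a8 := abs_add_le (q.D 1 0 (jφ q d z, jr d z) * prL q.e₁ (jr d z))
      (q.D 0 1 (jφ q d z, jr d z))
    rw [a7] at a8
    linarith
  constructor
  · have e : ∀ i, d.sx.D i (d.W q) z = nn q d z * pd i d.l z.1 +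
        b * ((z.1 i - z.2 i) / jr d z) := fun i => by
      have k1 : d.sx.D i (d.W q) z = (fx n).D i (d.W q) z := rfl
      rw [k1, D_congr (fx n) h.op (fun w hw => W_wt h hw) i hz, D_wt (ok_fx h.op) w hz i,
        (D_r h hz i).1, ← eφ]
      have k2 : (fx n).D i (uf d.l) z = pd i d.l z.1 := by
        have s1 : Sm (OmR q d) fun z : VV n => d.l z.1 :=
          (h.pk.lev.sm.comp contDiff_fst).contDiffOn
        have s2 : Sm (OmR q d) fun z : VV n => d.l z.2 :=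
          (h.pk.lev.sm.comp contDiff_snd).contDiffOn
        have : (fx n).D i (uf d.l) z = (fx n).D i (fun z : VV n => d.l z.1) z +
            (fx n).D i (fun z : VV n => d.l z.2) z := D_add (fx n) h.op s1 s2 i hz
        rw [this, fx, Dx_fst (dl z.1), Dx_snd (dl z.2), one_mul, add_zero]
      rw [k2]
      rfl
    rw [F_x f1]
    simp only [e]
    exact grad_alg (v := z.1 - z.2) n2.le n3 (grad_ge hi h.pk hl0) hbb rp r2.symm
  · have e : ∀ i, d.sy.D i (d.W q) z = nn q d z * pd i d.l z.2 +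
        b * ((z.2 i - z.1 i) / jr d z) := fun i => by
      have k1 : d.sy.D i (d.W q) z = (fy n).D i (d.W q) z := rfl
      rw [k1, D_congr (fy n) h.op (fun w hw => W_wt h hw) i hz, D_wt (ok_fy h.op) w hz i,
        (D_r h hz i).2, ← eφ]
      have k2 : (fy n).D i (uf d.l) z = pd i d.l z.2 := by
        have s1 : Sm (OmR q d) fun z : VV n => d.l z.1 :=
          (h.pk.lev.sm.comp contDiff_fst).contDiffOn
        have s2 : Sm (OmR q d) fun z : VV n => d.l z.2 :=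
          (h.pk.lev.sm.comp contDiff_snd).contDiffOn
        have : (fy n).D i (uf d.l) z = (fy n).D i (fun z : VV n => d.l z.1) z +
            (fy n).D i (fun z : VV n => d.l z.2) z := D_add (fy n) h.op s1 s2 i hz
        rw [this, fy, Dy_fst (dl z.1), Dy_snd (dl z.2), one_mul, zero_add]
      rw [k2, neg_sub]
      rfl
    rw [F_y f2]
    simp only [e]
    exact grad_alg (v := z.2 - z.1) n2.le n3 (grad_ge hi h.pk hl1) hbb rp
      ((sq_swap z.1 z.2).trans r2.symm)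

end Vale.Agent.P088.R2.H53.RS
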