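import Vale.Agent.P088.R2.H53.RS.Zone
import Vale.Agent.P088.R2.H312.S.Fin
import Vale.Agent.P088.R2.H591.X.Of

/-!
# P088, stage 3: the rows ZRF of RSf and RSn in the shape of helper558
-/

open Set Filter MeasureTheory
open scoped ContDiff Topology Matrix

noncomputable section

namespace Vale.Agent.P088.R2.H53.RS

open Vale.Agent.P088.LR Vale.Agent.P088.HY
open Vale.Agent.P088.R2.H31.EP
open Vale.Agent.P088.R2.H747.SW (MA coA)
open Vale.Agent.P088.R2.H558.G
open Vale.Agent.P088.R2.H867.EP (Zo)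

variable {n : ℕ}

/-- The row of the leaf RSf. -/
theorem zrf_RSf (hn : 3 ≤ n) {F : Lf n}
    (hM : ∀ q d, F.FM .RSf q d = MA d.sx d.sy (d.W q) (mRSf d q) (1 / 200))
    (hC : ∀ q d, F.FC .RSf q d = coA d.sx d.sy (d.W q) (mRSf d q) (d.ch q .RSf) (1 / 200)) :
    ZRF F .RSf := by
  refine H591.X.ZRF.of (by simp) ?_
  simp only [hM, hC]
  exact zone_RSf n hn

/-- The row of the leaf RSn. -/
theorem zrf_RSn (hn : 3 ≤ n) {F : Lf n}
    (hM : ∀ q d, F.FM .RSn q d = MA d.sx d.sy (d.W q) (H312.S.mRS q d) (1 / 200))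
    (hC : ∀ q d, F.FC .RSn q d = coA d.sx d.sy (d.W q) (H312.S.mRS q d) (d.ch q .RSn) (1 / 200)) :
    ZRF F .RSn := by
  refine H591.X.ZRF.of (by simp) ?_
  simp only [hM, hC]
  exact H312.S.zone_RSn n hn

end Vale.Agent.P088.R2.H53.RS
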