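import Vale.Agent.P088.R2.H53.RS.Pw

/-!
# P088, stage 3: the zone theorem of the leaf RSf
-/

open Set Filter MeasureTheory
open scoped ContDiff Topology Matrix

noncomputable section

namespace Vale.Agent.P088.R2.H53.RS

open Vale.Agent.P088.LR Vale.Agent.P088.HY Vale.Agent.P088.R2.H475 Vale.Agent.P088.R2.H464.Cu
open Vale.Agent.P088.R2.H31.EP Vale.Agent.P088.R2.H404.INF
open Vale.Agent.P088.R2.H269.INF (f0 nn Sb4 Sb5 fr0)
open Vale.Agent.P088.R2.H644.Ch
open Vale.Agent.P088.R2.H768.FarJ Vale.Agent.P088.R2.H961.GW Vale.Agent.P088.R2.H960.W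
open Vale.Agent.P088.R2.H747.SW (ss SmS zoneA MA coA qf)
open Vale.Agent.P088.R2.H303.F (B1 Cr Ctot Xc c0 tc_c0 eC_c0 dF_c0)

variable {n : ℕ} {q : Cst} {d : Pk n} {z : VV n}

/-! ## The slots -/

theorem s_x (h : Rq n q d) (hz : z ∈ OmR q d) (i j : Fin n) :
    d.sx.s i j z = (1 : Matrix (Fin n) (Fin n) ℝ) i j :=
  (s1_ev h.n1 h.rs.win.inf h.pk (om_x hz)).1.self_of_nhds i j

theorem s_y (h : Rq n q d) (hz : z ∈ OmR q d) (i j : Fin n) :
    d.sy.s i j z = (1 : Matrix (Fin n) (Fin n) ℝ) i j :=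
  (s1_ev h.n1 h.rs.win.inf h.pk (om_y hz)).2.self_of_nhds i j

theorem ds_x (h : Rq n q d) (hz : z ∈ OmR q d) (l i j : Fin n) :
    d.sx.D l (d.sx.s i j) z = 0 := by
  rw [D_congr d.sx h.op (fun w hw => s_x h hw i j) l hz, D_const]

theorem ds_y (h : Rq n q d) (hz : z ∈ OmR q d) (l i j : Fin n) :
    d.sy.D l (d.sy.s i j) z = 0 := by
  rw [D_congr d.sy h.op (fun w hw => s_y h hw i j) l hz, D_const]

theorem dds_x (h : Rq n q d) (hz : z ∈ OmR q d) (l k i j : Fin n) :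
    d.sx.D l (d.sx.D k (d.sx.s i j)) z = 0 := by
  rw [D_congr d.sx h.op (fun w hw => ds_x h hw k i j) l hz, D_const]

theorem dds_y (h : Rq n q d) (hz : z ∈ OmR q d) (l k i j : Fin n) :
    d.sy.D l (d.sy.D k (d.sy.s i j)) z = 0 := by
  rw [D_congr d.sy h.op (fun w hw => ds_y h hw k i j) l hz, D_const]

theorem one_le (i j : Fin n) : |(1 : Matrix (Fin n) (Fin n) ℝ) i j| ≤ 1 := by
  rw [Matrix.one_apply]
  split_ifs <;> simp

/-! ## The sizes -/

/-- The sizes at a point. -/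
theorem b1_R (h : Rq n q d) (hz : z ∈ OmR q d) {C : ℝ} (hC : 1 ≤ C)
    (b : Sb4 d.sx d.sy (f0 q d) C (fun _ => nn q d z) z) :
    B1 d.sx d.sy (d.W q) z C 0 (nn q d z) (nn q d z) (nn q d z) (nn q d z) (nn q d z)
      (nn q d z) (nn q d z) (nn q d z) (nn q d z) (nn q d z) (nn q d z) := by
  have b' : Sb5 d.sx d.sy (f0 q d) C (fun _ => nn q d z) (fun _ => nn q d z)
      (fun _ => nn q d z) z :=
    ⟨b.d1, b.d1', b.d2, b.d2', b.dm, b.L1, b.L1', b.l1, b.l2, b.l3, b.l4, b.m1, b.m2, b.m3, b.m4,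
      b.g2, b.g2', b.gm⟩
  have c := H269.INF.Sb5.congr h.op (fun w hw => W_R h hw) hz b'
  obtain ⟨n1, n2, n3⟩ := num_R h hz
  have n0 : 0 ≤ nn q d z := by unfold H269.INF.nn; linarith
  have C0 : 0 ≤ C := by linarith
  exact
    { C0 := C0
      δ0 := le_rfl
      δ1 := zero_le_one
      n10 := n0
      n20 := n0
      k10 := n0
      k20 := n0
      k30 := n0
      s1 := fun i j => by rw [s_x h hz]; exact (one_le i j).trans hC
      s2 := fun i j => by rw [s_y h hz]; exact (one_le i j).trans hC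
      ds1 := fun l i j => by rw [ds_x h hz]; simp
      ds2 := fun l i j => by rw [ds_y h hz]; simp
      dds1 := fun l k i j => by rw [dds_x h hz]; simp
      dds2 := fun l k i j => by rw [dds_y h hz]; simp
      d1 := c.d1
      d2 := c.d1'
      d11 := c.d2
      d12 := c.dm
      d22 := c.d2'
      D11 := c.l1
      D12 := c.l2
      D21 := c.l3
      D22 := c.l4
      L11 := c.m1
      L12 := c.m2
      L22 := c.m4 }

/-- Smoothness of `N + G`. -/
theorem sm_nn (h : Rq n q d) : Sm (OmR q d) (nn q d) := by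
  obtain ⟨su, sφ, sr, r0⟩ := sm_R h
  exact ((contDiff_infty_iff_deriv.1 h.pk.top.sm).2.comp_contDiffOn su).add
    ((h.pk.sl.sm 1 0).comp (sφ.prodMk sr) fun z hz => by
      show 0 < jr d z
      linarith [(r0 z hz).1])

theorem sm_m (h : Rq n q d) : Sm (OmR q d) (mRSf d q) :=
  (contDiffOn_const.mul (sm_nn h)).congr fun _ hz => m_R h hz

/-- `N + G` is large. -/
theorem nn_ge (h : Rq n q d) (hz : z ∈ OmR q d) : 1 / 4 * Real.exp (2 * q.R) ≤ nn q d z := by
  obtain ⟨n1, n2, n3⟩ := num_R h hz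
  have h1 := om_N hz
  have h2 := om_u hz
  have h3 := l₀_nonneg h.rs.win.inf h.pk
  have h4 := h.rs.win.nm
  have h5 := h.rs.R1
  unfold Pk.uth at h2
  have h6 : Real.exp (2 * q.R) ≤ Real.exp (d.u0 z) := Real.exp_le_exp.2 (by linarith)
  have h7 : 0 < Real.exp (d.u0 z) := Real.exp_pos _
  have h8 : 1 / 4 * Real.exp (d.u0 z) ≤ q.nm / 4 * Real.exp (d.u0 z) :=
    mul_le_mul_of_nonneg_right (by linarith) h7.le
  have h9 : uf d.l z = d.u0 z := rfl
  unfold H269.INF.nn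
  rw [h9]
  linarith

/-! ## The constants -/

/-- The constant of the sizes. -/
def CR (n : ℕ) (q₀ : Cst) : ℝ := (sbR n q₀).choose + 1

theorem CR_one (n : ℕ) (q₀ : Cst) : 1 ≤ CR n q₀ := by
  have := (sbR n q₀).choose_spec.1
  unfold CR
  linarith

/-- The lower bound of the gradient. -/
def cF : ℝ := (3 / 20) ^ 2

theorem cF_pos : 0 < cF := by unfold cF; norm_num

theorem Ctot_pos (n : ℕ) (q₀ : Cst) : 0 < Ctot n (CR n q₀) cF := by
  have h1 := CR_one n q₀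
  have h2 := H303.F.Xc_one (a := (n : ℝ)) (C := CR n q₀) (Nat.cast_nonneg n) (by linarith)
  have h3 := cF_pos
  unfold Ctot
  positivity

/-- The smallness. -/
def eR (n : ℕ) (q₀ : Cst) : ℝ := 1 / (12000 * Ctot n (CR n q₀) cF)

theorem eR_pos (n : ℕ) (q₀ : Cst) : 0 < eR n q₀ := by
  have := Ctot_pos n q₀
  unfold eR
  positivity

theorem eR_eq (n : ℕ) (q₀ : Cst) : 60 * (Ctot n (CR n q₀) cF * eR n q₀) = 1 / 200 := by
  have := (Ctot_pos n q₀).ne'
  unfold eR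
  field_simp
  norm_num

/-- The threshold. -/
def kR (n : ℕ) (q₀ : Cst) : ℝ :=
  2 / (q₀.σ * eR n q₀) + (CR n q₀ + n ^ 2 * CR n q₀ ^ 3) * (80000 / 9) + 1

theorem ev_kR (n : ℕ) : EvC fun q => kR n q.b_R * q.R ≤ 1 / 4 * Real.exp (2 * q.R) := by
  refine EvC.at_R (fun q t => kR n q * t ≤ 1 / 4 * Real.exp (2 * t)) fun q => ?_
  filter_upwards [eventually_ge_atTop 0, eventually_ge_atTop (2 * kR n q)] with t h0 h1
  have h2 := Real.quadratic_le_exp_of_nonneg (x := 2 * t) (by positivity)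
  nlinarith

/-- The consequences of the threshold. -/
theorem thr (h : Rq n q d) (hk : kR n q.b_R * q.R ≤ 1 / 4 * Real.exp (2 * q.R))
    (hz : z ∈ OmR q d) :
    1 ≤ nn q d z ∧ 1 ≤ eR n q.b_R * mRSf d q z ∧
    (CR n q.b_R + n ^ 2 * CR n q.b_R ^ 3) * (80000 / 9) ≤ nn q d z := by
  have h1 := nn_ge h hz
  have hR := h.rs.R1
  have hσ := h.fk.σ0
  have he := eR_pos n q.b_R
  have hC := CR_one n q.b_R
  have hn : (0 : ℝ) ≤ n := Nat.cast_nonneg n
  set C := CR n q.b_R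
  set e := eR n q.b_R with hee
  have k1 : 0 ≤ (C + n ^ 2 * C ^ 3) * (80000 / 9) := by positivity
  have k2 : 0 < 2 / (q.σ * e) := by positivity
  have k3 : kR n q.b_R = 2 / (q.σ * e) + (C + n ^ 2 * C ^ 3) * (80000 / 9) + 1 := rfl
  rw [k3] at hk
  have k4 : (2 / (q.σ * e) + (C + n ^ 2 * C ^ 3) * (80000 / 9) + 1) * q.R ≤ nn q d z :=
    hk.trans h1
  have k5 : (C + n ^ 2 * C ^ 3) * (80000 / 9) * 1 ≤ (C + n ^ 2 * C ^ 3) * (80000 / 9) * q.R :=
    mul_le_mul_of_nonneg_left (by linarith) k1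
  have k6 : 0 < 2 / (q.σ * e) * q.R := by positivity
  refine ⟨by nlinarith, ?_, by nlinarith⟩
  rw [m_R h hz]
  have k7 : 2 / (q.σ * e) * q.R ≤ nn q d z := by nlinarith
  have k8 : 0 < q.σ / (2 * q.R) := by positivity
  calc (1 : ℝ) = e * (q.σ / (2 * q.R) * (2 / (q.σ * e) * q.R)) := by field_simp
    _ ≤ e * (q.σ / (2 * q.R) * nn q d z) := by gcongr

/-- The sizes, with the constant of the package. -/
theorem sb_R (h : Rq n q d) (hz : z ∈ OmR q d) :
    Sb4 d.sx d.sy (f0 q d) (CR n q.b_R) (fun _ => nn q d z) z ∧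
      (∀ i, |d.sx.D i (nn q d) z| ≤ CR n q.b_R * nn q d z) ∧
      (∀ i, |d.sy.D i (nn q d) z| ≤ CR n q.b_R * nn q d z) := by
  obtain ⟨n1, n2, n3⟩ := num_R h hz
  have n0 : 0 ≤ nn q d z := by unfold H269.INF.nn; linarith
  obtain ⟨b1, b2, b3⟩ := (sbR n q.b_R).choose_spec.2 q d rfl h.n1 h.rs h.pk z hz
  have hc : (sbR n q.b_R).choose ≤ CR n q.b_R := by unfold CR; linarith
  exact ⟨b1.mono (fun _ => n0) hc, fun i => (b2 i).trans (mul_le_mul_of_nonneg_right hc n0),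
    fun i => (b3 i).trans (mul_le_mul_of_nonneg_right hc n0)⟩

/-! ## The zone -/

/-- The pointwise total inequality. -/
theorem tot_R (h : Rq n q d) (hk : kR n q.b_R * q.R ≤ 1 / 4 * Real.exp (2 * q.R))
    (hW : Sm (OmR q d) (d.W q)) (hz : z ∈ OmR q d) (A B : Fin n → ℝ) (x y : ℝ) :
    4 * (mRSf d q z * ss d.sx A z + mRSf d q z * ss d.sy B z) -
      1 / 200 * (mRSf d q z * d.sx.F (d.W q) z * x ^ 2 + mRSf d q z * d.sy.F (d.W q) z * y ^ 2) ≤
    8 * (TH d.sx d.sy (d.W q) z A B + tc d.sx c0 (d.W q) z A + tc d.sy c0 (d.W q) z B) +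
      qf d.sx d.sy 0 0 (d.W q) z A B x y := by
  obtain ⟨t1, t2, -⟩ := thr h hk hz
  obtain ⟨b1, -, -⟩ := sb_R h hz
  have hC := CR_one n q.b_R
  have hb := b1_R h hz hC b1
  have he := eR_pos n q.b_R
  obtain ⟨F1, F2⟩ := F_R h hz
  have hσ := h.fk.σ0
  have hR := h.fk.R0
  have m0 : 0 ≤ mRSf d q z := by
    by_contra hc
    have := mul_neg_of_pos_of_neg he (not_le.1 hc)
    linarith
  set N := nn q d z with hN
  set m := mRSf d q z with hm
  set e := eR n q.b_R with hee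
  have N0 : 0 ≤ N := by linarith
  have a1 : N ^ 2 ≤ e * (m * N ^ 2) := by
    calc N ^ 2 = 1 * N ^ 2 := (one_mul _).symm
      _ ≤ (e * m) * N ^ 2 := mul_le_mul_of_nonneg_right t2 (sq_nonneg _)
      _ = _ := by ring
  have a2 : (N ^ 2) ^ 2 ≤ e ^ 2 * ((m * N ^ 2) * (m * N ^ 2)) := by
    calc (N ^ 2) ^ 2 ≤ (e * (m * N ^ 2)) ^ 2 := pow_le_pow_left₀ (sq_nonneg _) a1 2
      _ = _ := by ring
  have a0 : N ≤ N ^ 2 := by nlinarith
  have hcard : ((Fintype.card (Fin n) : ℕ) : ℝ) ≤ (n : ℝ) := by simp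
  -- `e ≤ 1`
  have e1 : e ≤ 1 := by
    have h1 := H303.F.Xc_one (a := (n : ℝ)) (C := CR n q.b_R) (Nat.cast_nonneg n) (by linarith)
    have h2 : 1 ≤ Ctot n (CR n q.b_R) cF := by
      unfold Ctot cF
      rw [le_div_iff₀ (by norm_num)]
      linarith
    have h3 := eR_eq n q.b_R
    rw [← hee] at h3
    nlinarith
  have m1 : 1 ≤ m := by nlinarith
  have a3 : N ^ 2 ≤ e * (m * (m * N ^ 2)) := by
    have h1 : m * N ^ 2 ≤ m * (m * N ^ 2) := by
      have : 0 ≤ m * N ^ 2 := by positivity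
      nlinarith
    exact a1.trans (mul_le_mul_of_nonneg_left h1 he.le)
  have z1 : ∀ i, |d.sx.D i (0 : VV n → ℝ) z| ≤ CR n q.b_R * 0 := fun i => by
    have : d.sx.D i (0 : VV n → ℝ) z = 0 := D_const d.sx 0 i z
    rw [this]; simp
  have z2 : ∀ i, |d.sy.D i (0 : VV n → ℝ) z| ≤ CR n q.b_R * 0 := fun i => by
    have : d.sy.D i (0 : VV n → ℝ) z = 0 := D_const d.sy 0 i z
    rw [this]; simp
  have C := H303.F.B1.cr (m₁ := m) (m₂ := m) (c₀ := cF) (ε := e) (ν := 0) (a := (n : ℝ)) hb h.okx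
    h.oky (fun _ => rfl) (fun _ => rfl) (H644.Ep.Lx_x d.s₁ _) (H644.Ep.Lx_y d.s₂ _) hW hz hcard
    hcard z1 z2 le_rfl m0 m0 cF_pos he.le F1 F2 (by linarith) (by linarith) a2 a3 a3 a3 a3
    (by linarith) (by linarith) (by
      have : N ^ 2 ≤ (N ^ 2) ^ 2 := by nlinarith
      linarith) (by rw [zero_mul]; positivity) (by rw [zero_mul]; positivity) (cert_R h hz)
  have T := H303.F.Cr.tot (η := 1 / 200) (by have := Ctot_pos n q.b_R; positivity)
    (le_of_eq (eR_eq n q.b_R)) m0 m0 (fun i j => by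
      rw [s_x h hz, s_x h hz, Matrix.one_apply, Matrix.one_apply]; simp [eq_comm])
    (fun i j => by
      rw [s_y h hz, s_y h hz, Matrix.one_apply, Matrix.one_apply]; simp [eq_comm])
    (fun A => by
      have : ss d.sx A z = ∑ i, A i ^ 2 := ss_x (fun i j => s_x h hz i j) A
      rw [this]; positivity)
    (fun A => by
      have : ss d.sy A z = ∑ i, A i ^ 2 := ss_y (fun i j => s_y h hz i j) A
      rw [this]; positivity) C A B x y
  rw [tc_c0, tc_c0, add_zero, add_zero]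
  exact T

/-- The errors of one slot. -/
theorem sms {σ' : Sl (VV n) (Fin n)} {W m : VV n → ℝ} {C N : ℝ}
    (m0 : 0 ≤ m z) (hs : ∀ i j, σ'.s i j z = (1 : Matrix (Fin n) (Fin n) ℝ) i j)
    (hC : 1 ≤ C) (hN : 0 ≤ N) (hF : (3 / 20) ^ 2 * N ^ 2 ≤ σ'.F W z)
    (hL : |σ'.Λ W z| ≤ C * N) (hW : ∀ i, |σ'.D i W z| ≤ C * N)
    (hm : ∀ i, |σ'.D i m z| ≤ C * m z) (hT : (C + n ^ 2 * C ^ 3) * (80000 / 9) ≤ N) :
    SmS σ' W m c0 0 (1 / 200) 1 z := by
  have es : ∀ i j, σ'.s i j z = if i = j then 1 else 0 := fun i j => by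
    rw [hs, Matrix.one_apply]
  have e1 : ∀ A : Fin n → ℝ, ss σ' A z = ∑ i, A i ^ 2 := fun A => by
    unfold H747.SW.ss
    simp only [es]
    refine Finset.sum_congr rfl fun i _ => ?_
    simp [pow_two]
  have hF0 : 0 ≤ σ'.F W z := le_trans (by positivity) hF
  refine ⟨m0, fun A => ?_, fun A B => ?_, ?_, ?_, fun a => ?_, ?_⟩
  · rw [e1]
    have : 0 ≤ ∑ i, A i ^ 2 := Finset.sum_nonneg fun _ _ => sq_nonneg _
    linarith
  · have : ∑ i, ∑ j, σ'.s i j z * A i * B j = ∑ i, A i * B i := by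
      simp only [es]
      refine Finset.sum_congr rfl fun i _ => ?_
      simp
    rw [this, one_pow, one_mul]
    exact Finset.sum_mul_sq_le_sq_mul_sq Finset.univ A B
  · have g := H644.Sy.G_le (σ := σ') (f := m) (h := W) (S := C) (c := C * m z) (d := C * N)
      (fun i j => by rw [hs]; exact (one_le i j).trans hC) hm hW
    rw [Fintype.card_fin] at g
    have k1 : |m z * σ'.Λ W z + σ'.Γ m W z| ≤
        m z * (C * N) + (n : ℝ) ^ 2 * (C * (C * m z) * (C * N)) := by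
      refine (abs_add_le _ _).trans (add_le_add ?_ g)
      rw [abs_mul, abs_of_nonneg m0]
      exact mul_le_mul_of_nonneg_left hL m0
    refine k1.trans ?_
    have k2 : m z * (C * N) + (n : ℝ) ^ 2 * (C * (C * m z) * (C * N)) =
        (C + n ^ 2 * C ^ 3) * (m z * N) := by ring
    have k3 : (C + n ^ 2 * C ^ 3) * (m z * N) ≤ 9 / 80000 * N * (m z * N) :=
      mul_le_mul_of_nonneg_right (by linarith) (by positivity)
    have k4 : 9 / 80000 * N * (m z * N) = 1 / 200 * (m z * ((3 / 20) ^ 2 * N ^ 2)) := by ring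
    rw [k2]
    refine k3.trans ?_
    rw [k4]
    gcongr
  · rw [dF_c0, abs_zero]
    positivity
  · rw [eC_c0, abs_zero]
    have : 0 ≤ H747.SW.Ys σ' W a z := Finset.sum_nonneg fun _ _ => sq_nonneg _
    positivity
  · have : ∑ i, (c0 : Fin n → VV n → ℝ) i z ^ 2 = 0 := by simp [H303.F.c0]
    rw [this, mul_zero]
    positivity

/-- **The zone theorem of the leaf RSf.** -/
theorem zone_RSf (n : ℕ) (hn : 3 ≤ n) : ZoneThm n (fun q d => d.ch q .RSf)
    (fun q d => (MA d.sx d.sy (d.W q) (mRSf d q) (1 / 200)).sm fun z => d.ch q .RSf z ^ 2)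
    (fun q d => coA d.sx d.sy (d.W q) (mRSf d q) (d.ch q .RSf) (1 / 200)) := by
  have hn1 : 1 ≤ n := by omega
  refine (((evRs n).and (ev_kR n)).and ((rsf_su n).and (EvC.litSm n))).mono ?_
  rintro q ⟨⟨hq, hk⟩, hsu, hS⟩ d hp
  have h : Rq n q d := ⟨hn1, hq, hp, rfl, rfl⟩
  have hs := hS d hp
  have := H644.Ch.haar_VV (n := n)
  have hWs : ContDiff ℝ ∞ (d.W q) := WT_smooth hp.ok hp.Θs hp.ret.sm hp.l_sm hs.g
  have okx' : d.sx.Ok univ (fun _ => 1) := by
    have := H961.GW.okx (fr0 h.fk.tr.sm h.fk.tr.sy) (fr0 h.fk.tr'.sm h.fk.tr'.sy) isOpen_univ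
      (U := (univ : Set (VV n))) (fun z _ => ⟨mem_univ _, mem_univ _⟩)
    rwa [tht_one] at this
  have oky' : d.sy.Ok univ (fun _ => 1) := by
    have := H961.GW.oky (fr0 h.fk.tr.sm h.fk.tr.sy) (fr0 h.fk.tr'.sm h.fk.tr'.sy) isOpen_univ
      (U := (univ : Set (VV n))) (fun z _ => ⟨mem_univ _, mem_univ _⟩)
    rwa [tht_one] at this
  have key : ∀ z ∈ OmR q d, SmS d.sx (d.W q) (mRSf d q) c0 0 (1 / 200) 1 z ∧
      SmS d.sy (d.W q) (mRSf d q) c0 0 (1 / 200) 1 z := by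
    intro z hz
    obtain ⟨t1, t2, t3⟩ := thr h hk hz
    obtain ⟨b1, b2, b3⟩ := sb_R h hz
    have hC := CR_one n q.b_R
    have hb := b1_R h hz hC b1
    have he := eR_pos n q.b_R
    obtain ⟨F1, F2⟩ := F_R h hz
    have hσ := h.fk.σ0
    have hR := h.fk.R0
    have m0 : 0 ≤ mRSf d q z := by
      by_contra hc
      have := mul_neg_of_pos_of_neg he (not_le.1 hc)
      linarith
    have b' : Sb5 d.sx d.sy (f0 q d) (CR n q.b_R) (fun _ => nn q d z) (fun _ => nn q d z)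
        (fun _ => nn q d z) z :=
      ⟨b1.d1, b1.d1', b1.d2, b1.d2', b1.dm, b1.L1, b1.L1', b1.l1, b1.l2, b1.l3, b1.l4, b1.m1,
        b1.m2, b1.m3, b1.m4, b1.g2, b1.g2', b1.gm⟩
    have c := H269.INF.Sb5.congr h.op (fun w hw => W_R h hw) hz b'
    have dm : ∀ i, |d.sx.D i (mRSf d q) z| ≤ CR n q.b_R * mRSf d q z := fun i => by
      rw [D_congr d.sx h.op (fun w hw => m_R h hw) i hz,
        D_cmul d.sx h.op (q.σ / (2 * q.R)) (sm_nn h) i hz, m_R h hz, abs_mul,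
        abs_of_pos (by positivity : 0 < q.σ / (2 * q.R))]
      calc q.σ / (2 * q.R) * |d.sx.D i (nn q d) z| ≤
          q.σ / (2 * q.R) * (CR n q.b_R * nn q d z) :=
            mul_le_mul_of_nonneg_left (b2 i) (by positivity)
        _ = _ := by ring
    have dm' : ∀ i, |d.sy.D i (mRSf d q) z| ≤ CR n q.b_R * mRSf d q z := fun i => by
      rw [D_congr d.sy h.op (fun w hw => m_R h hw) i hz,
        D_cmul d.sy h.op (q.σ / (2 * q.R)) (sm_nn h) i hz, m_R h hz, abs_mul,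
        abs_of_pos (by positivity : 0 < q.σ / (2 * q.R))]
      calc q.σ / (2 * q.R) * |d.sy.D i (nn q d) z| ≤
          q.σ / (2 * q.R) * (CR n q.b_R * nn q d z) :=
            mul_le_mul_of_nonneg_left (b3 i) (by positivity)
        _ = _ := by ring
    exact ⟨sms m0 (s_x h hz) hC (by linarith) F1 c.L1 c.d1 dm t3,
      sms m0 (s_y h hz) hC (by linarith) F2 c.L1' c.d1' dm' t3⟩
  exact zoneA (θ := 1) (v₁ := 0) (v₂ := 0) (c := c0) (c' := c0) (K := 1) (Ω := OmR q d)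
    (S := tsupport (d.ch q .RSf)) okx' oky' contDiffOn_const contDiffOn_const hWs.contDiffOn
    (hs.ch .RSf).contDiffOn h.op (subset_univ _) (isClosed_tsupport _)
    (fun z hz => su_Om hn1 hq hp (hsu d hp z hz.2))
    (fun z _ hz => image_eq_zero_of_notMem_tsupport hz)
    (fun _ => contDiffOn_const) (fun _ => contDiffOn_const) (sm_m h) (by norm_num) (by norm_num)
    le_rfl le_rfl zero_le_one (by norm_num) (fun z hz => (key z hz).1) (fun z hz => (key z hz).2)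
    fun z hz A B x y => tot_R h hk hWs.contDiffOn hz A B x y

end Vale.Agent.P088.R2.H53.RS
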